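import Vale.Agent.P088.R2.H230.W.FlS
import Vale.Agent.P088.R2.H747.S.SemS

/-!
# P088, stage 3: the fields `fl e (D W) γ` satisfy the smallness conditions `SmS` of zone A
-/

open Set
open scoped ContDiff

noncomputable section

namespace Vale.Agent.P088.R2.H230.W

open Vale.Agent.P088.R2.H961.GW Vale.Agent.P088.R2.H960.W Vale.Agent.P088.R2.H747.S
open Vale.Agent.P088.R2.H747.SW

variable {E ι : Type*} [NormedAddCommGroup E] [NormedSpace ℝ E] [Fintype ι]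
variable {σ : Sl E ι} {U : Set E} {θ : E → ℝ} {W m v : E → ℝ} {γ : ι → E → ℝ} {e : ι → ℝ} {z : E}
  {B g₀ g₁ H : ℝ}

/-- The bound of `m Λ W + Γ(m, W)`. -/
theorem w1_bd (b : Bp σ e W γ B g₀ g₁ H z) {M₁ : ℝ} (m0 : 0 ≤ m z)
    (hm : ∀ i, |σ.D i m z| ≤ M₁) : |m z * σ.Λ W z + σ.Γ m W z| ≤
      3 * (Fintype.card ι : ℝ) ^ 2 * (m z * (H + B * nn (gr σ W z)) + M₁ * nn (gr σ W z)) := by
  have a1 : |σ.Λ W z| ≤ 3 * ((Fintype.card ι : ℝ) ^ 2 * (H + B * nn (gr σ W z))) := by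
    unfold Sl.Λ
    have t : ∀ i, ∀ j, |σ.s i j z * (σ.D i (σ.D j W) z + σ.k i z * σ.D j W z) +
        σ.D i (σ.s i j) z * σ.D j W z| ≤ 3 * (H + B * nn (gr σ W z)) := by
      intro i j
      have t1 : |σ.s i j z * (σ.D i (σ.D j W) z + σ.k i z * σ.D j W z)| ≤
          2 * (H + B * nn (gr σ W z)) := by
        rw [abs_mul]
        refine mul_le_mul (b.s i j) ?_ (abs_nonneg _) (by norm_num)
        refine (abs_add_le _ _).trans (add_le_add ((abs_le_nn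
          (fun j => σ.D i (σ.D j W) z) j).trans (b.H i)) ?_)
        rw [abs_mul]
        exact mul_le_mul (b.k i) (abs_le_nn (gr σ W z) j) (abs_nonneg _) b.B0
      have t2 : |σ.D i (σ.s i j) z * σ.D j W z| ≤ B * nn (gr σ W z) := by
        rw [abs_mul]
        exact mul_le_mul (b.ds i i j) (abs_le_nn (gr σ W z) j) (abs_nonneg _) b.B0
      have H0 : 0 ≤ H := (nn_nonneg _).trans (b.H i)
      refine (abs_add_le _ _).trans ?_
      linarith
    calc _ ≤ ∑ i, |∑ j, (σ.s i j z * (σ.D i (σ.D j W) z + σ.k i z * σ.D j W z) +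
          σ.D i (σ.s i j) z * σ.D j W z)| := Finset.abs_sum_le_sum_abs _ _
      _ ≤ ∑ _i : ι, ∑ _j : ι, 3 * (H + B * nn (gr σ W z)) :=
          Finset.sum_le_sum fun i _ => (Finset.abs_sum_le_sum_abs _ _).trans
            (Finset.sum_le_sum fun j _ => t i j)
      _ = _ := by
          simp only [Finset.sum_const, Finset.card_univ, nsmul_eq_mul]; ring
  have a2 : |σ.Γ m W z| ≤ 2 * ((Fintype.card ι : ℝ) ^ 2 * (M₁ * nn (gr σ W z))) := by
    unfold Sl.Γ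
    have t : ∀ i, ∀ j, |σ.s i j z * σ.D i m z * σ.D j W z| ≤
        2 * (M₁ * nn (gr σ W z)) := by
      intro i j
      rw [abs_mul, abs_mul]
      have M0 : 0 ≤ M₁ := (abs_nonneg _).trans (hm i)
      calc |σ.s i j z| * |σ.D i m z| * |σ.D j W z| ≤ 2 * M₁ * nn (gr σ W z) :=
            mul_le_mul (mul_le_mul (b.s i j) (hm i) (abs_nonneg _) (by norm_num))
              (abs_le_nn (gr σ W z) j) (abs_nonneg _) (by positivity)
        _ = _ := by ring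
    calc _ ≤ ∑ i, |∑ j, σ.s i j z * σ.D i m z * σ.D j W z| :=
          Finset.abs_sum_le_sum_abs _ _
      _ ≤ ∑ _i : ι, ∑ _j : ι, 2 * (M₁ * nn (gr σ W z)) :=
          Finset.sum_le_sum fun i _ => (Finset.abs_sum_le_sum_abs _ _).trans
            (Finset.sum_le_sum fun j _ => t i j)
      _ = _ := by
          simp only [Finset.sum_const, Finset.card_univ, nsmul_eq_mul]; ring
  have a3 : |m z * σ.Λ W z| ≤ m z * (3 * ((Fintype.card ι : ℝ) ^ 2 *
      (H + B * nn (gr σ W z)))) := by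
    rw [abs_mul, abs_of_nonneg m0]
    exact mul_le_mul_of_nonneg_left a1 m0
  have a4 := (abs_add_le (m z * σ.Λ W z) (σ.Γ m W z)).trans (add_le_add a3 a2)
  have M0 : 0 ≤ (Fintype.card ι : ℝ) ^ 2 * (M₁ * nn (gr σ W z)) := by
    have h1 := (abs_nonneg _).trans a2
    linarith
  linarith

/-- **The smallness conditions `SmS` of zone A for the fields `fl e (D W) γ`.** -/
theorem smS_fl (b : Bp σ e W γ B g₀ g₁ H z) (ok : σ.Ok U θ) (hW : Sm U W)
    (hγ : ∀ i, Sm U (γ i)) (h0 : ∀ z ∈ U, 0 < dd (gr σ W z) (gr σ W z))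
    (hv : v z = 0) (hz : z ∈ U) {η K M₁ : ℝ} (hη : 0 ≤ η) (hH : 0 ≤ H) (m0 : 0 ≤ m z)
    (lo : ∀ A : ι → ℝ, ∑ i, A i ^ 2 ≤ 2 * ss σ A z)
    (sK : ∀ A B : ι → ℝ,
      (∑ i, ∑ j, σ.s i j z * A i * B j) ^ 2 ≤ K ^ 2 * ((∑ i, A i ^ 2) * ∑ i, B i ^ 2))
    (hm : ∀ i, |σ.D i m z| ≤ M₁)
    (c1 : 20 * (Fintype.card ι : ℝ) ^ 2 * (H * g₀ + g₁ * nn (gr σ W z)) ≤
      η * (m z * nn (gr σ W z) ^ 2))
    (c2 : 2 * (2 + m z) * g₀ ^ 2 ≤ η ^ 4 * (m z ^ 2 * nn (gr σ W z) ^ 2))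
    (c3 : 6 * (Fintype.card ι : ℝ) ^ 2 * (m z * (H + B * nn (gr σ W z)) +
      M₁ * nn (gr σ W z)) ≤ η * (m z * nn (gr σ W z) ^ 2)) :
    SmS σ W m (cf σ e W γ) v η K z := by
  have hn := nn_pos b.w0
  have hF : nn (gr σ W z) ^ 2 ≤ 2 * σ.F W z := by
    have := lo (gr σ W z)
    have e1 : nn (gr σ W z) ^ 2 = ∑ i, gr σ W z i ^ 2 := by
      rw [nn_sq]; unfold dd; exact Finset.sum_congr rfl fun i _ => by ring
    rw [e1]
    exact this
  have hηm : 0 ≤ η * m z := mul_nonneg hη m0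
  have hF2 := mul_le_mul_of_nonneg_left hF hηm
  refine ⟨m0, lo, sK, ?_, ?_, fun a => ?_, ?_⟩
  · have := w1_bd b m0 hm
    linarith
  · have := dF_bd b ok hW hγ h0 hz
    linarith
  · have h := eC_fl (v := v) b ok hW hγ hv hH hz a
    have e2 : Ys σ W a z = ∑ i, YY σ W a i z ^ 2 := rfl
    rw [e2]
    refine h.trans ?_
    have e3 : η * (1 / 2 * m z * ∑ i, YY σ W a i z ^ 2) =
        η * (1 / 2 * m z) * ∑ i, YY σ W a i z ^ 2 := by ring
    rw [e3]
    refine mul_le_mul_of_nonneg_right ?_ (Finset.sum_nonneg fun i _ => sq_nonneg _)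
    have e1 : 9 * (Fintype.card ι : ℝ) ^ 2 *
        (H * g₀ / nn (gr σ W z) ^ 2 + g₁ / nn (gr σ W z)) =
        9 * (Fintype.card ι : ℝ) ^ 2 * (H * g₀ + g₁ * nn (gr σ W z)) / nn (gr σ W z) ^ 2 := by
      field_simp
    rw [e1, div_le_iff₀ (by positivity)]
    have G0 : 0 ≤ g₀ := (nn_nonneg _).trans b.g0
    have B0 := b.B0
    have G1 : 0 ≤ g₁ := (mul_nonneg (by linarith) G0).trans b.gg
    have : 0 ≤ (Fintype.card ι : ℝ) ^ 2 * (H * g₀ + g₁ * nn (gr σ W z)) := by positivity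
    linarith
  · have e1 : ∑ i, cf σ e W γ i z ^ 2 = nn (fun i => cf σ e W γ i z) ^ 2 := by
      rw [nn_sq]; unfold dd; exact Finset.sum_congr rfl fun i _ => by ring
    have G0 : 0 ≤ g₀ := (nn_nonneg _).trans b.g0
    have h1 : nn (fun i => cf σ e W γ i z) ≤ g₀ / nn (gr σ W z) := by
      have h2 : nn (fl e (gr σ W z) fun j => γ j z) ≤ nn e * nn (fun j => γ j z) /
        nn (gr σ W z) := nn_fl_le b.w0
      refine le_trans h2 (div_le_div_of_nonneg_right ?_ hn.le)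
      calc nn e * nn (fun j => γ j z) ≤ 1 * g₀ :=
            mul_le_mul b.e1 b.g0 (nn_nonneg _) (by norm_num)
        _ = g₀ := one_mul _
    have h2 := pow_le_pow_left₀ (nn_nonneg _) h1 2
    rw [e1]
    have h3 : (2 + m z) * (g₀ / nn (gr σ W z)) ^ 2 ≤ η ^ 4 * (1 / 2 * m z ^ 2) := by
      rw [div_pow, ← mul_div_assoc, div_le_iff₀ (by positivity)]
      linarith
    exact (mul_le_mul_of_nonneg_left h2 (by linarith)).trans h3

end Vale.Agent.P088.R2.H230.W
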