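import Vale.Agent.P088.R2.H230.W.Geo2
import Vale.Agent.P088.R2.H230.W.CvV
import Vale.Agent.P088.R2.H31.EP.Wgt

/-!
# P088, stage 3: the correction `2 χ(r²) μ(l(p))` in the slots

Its gradients and its Hessian form are `O(β)` where `r ≤ 2`.
-/

open Set Filter
open scoped ContDiff Topology

noncomputable section

namespace Vale.Agent.P088.R2.H230.W

open Vale.Agent.P088.LR Vale.Agent.P088.HY Vale.Agent.P088.R2.H961.GW
open Vale.Agent.P088.R2.H464.Cu Vale.Agent.P088.R2.H644.Ch Vale.Agent.P088.R2.H31.EP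

variable {n : ℕ} {O : Set (V n)} {ε δ₁ δ₂ h₀ h₁ t : ℝ} {s₁ s₂ g : MF n} {z : VV n}

namespace Gd

variable (G : Gd O ε δ₁ δ₂ h₀ h₁ t s₁ s₂ g z)

include G

lemma GA_rr_eq (A B : V n) : GA (sx s₁) (sy s₂) (rr g) z A B =
    (rr g z)⁻¹ * GA (sx s₁) (sy s₂) (rq g) z A B :=
  GA_comp (ok_x G.hO G.n₁ G.n₂ (Ur_open G.hO G.ng.sm) fun _ hz => hz.1)
    (ok_y G.hO G.n₁ G.n₂ (Ur_open G.hO G.ng.sm) fun _ hz => hz.1) (cp_rr G.ng.sm) G.mem A B

lemma TH_rr_eq (A B : V n) : TH (sx s₁) (sy s₂) (rr g) z A B = (rr g z)⁻¹ *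
    (TH (sx s₁) (sy s₂) (rq g) z A B - GA (sx s₁) (sy s₂) (rr g) z A B ^ 2) := by
  have e1 : TH (sx s₁) (sy s₂) (rr g) z A B = (rr g z)⁻¹ * TH (sx s₁) (sy s₂) (rq g) z A B +
      -((rr g z)⁻¹ * (2 * rq g z)⁻¹) * GA (sx s₁) (sy s₂) (rq g) z A B ^ 2 :=
    TH_comp (ok_x G.hO G.n₁ G.n₂ (Ur_open G.hO G.ng.sm) fun _ hz => hz.1)
      (ok_y G.hO G.n₁ G.n₂ (Ur_open G.hO G.ng.sm) fun _ hz => hz.1) (cp_rr G.ng.sm) G.mem A B
  have r0 := G.rr0
  rw [e1, G.GA_rr_eq, ← G.rr_sq]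
  field_simp
  ring

lemma GA_rr_le (A B : V n) : |GA (sx s₁) (sy s₂) (rr g) z A B| ≤ 3 * (nn A + nn B) := by
  have gA : GA (sx s₁) (sy s₂) (rr g) z A B =
      dd (gr (sx s₁) (rr g) z) (sU (sx s₁) z A) + dd (gr (sy s₂) (rr g) z) (sU (sy s₂) z B) :=
    GA_dd (fun i j => G.n₁.sy z.1 i j) (fun i j => G.n₂.sy z.2 i j) _ A B
  have t1 := G.t1
  have n1 : nn (gr (sx s₁) (rr g) z) ≤ 3 / 2 := by
    have := nn_le_add (gr (sx s₁) (rr g) z) (hq z)
    rw [nn_one (hq_one G.q0)] at this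
    linarith [G.rx]
  have n2 : nn (gr (sy s₂) (rr g) z) ≤ 3 / 2 := by
    have := nn_le_add (gr (sy s₂) (rr g) z) (-hq z)
    rw [nn_neg, nn_one (hq_one G.q0), sub_neg_eq_add] at this
    linarith [G.ry]
  rw [gA]
  have h1 := (dd_le_nn (gr (sx s₁) (rr g) z) (sU (sx s₁) z A)).trans
    (mul_le_mul n1 (G.nx2 A) (nn_nonneg _) (by norm_num))
  have h2 := (dd_le_nn (gr (sy s₂) (rr g) z) (sU (sy s₂) z B)).trans
    (mul_le_mul n2 (G.ny2 B) (nn_nonneg _) (by norm_num))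
  refine (abs_add_le _ _).trans ?_
  linarith

lemma GA_rq_le (A B : V n) : |GA (sx s₁) (sy s₂) (rq g) z A B| ≤
    3 * rr g z * (nn A + nn B) := by
  have r0 := G.rr0
  have h := G.GA_rr_le A B
  rw [G.GA_rr_eq, abs_mul, abs_of_pos (inv_pos.2 r0), inv_mul_le_iff₀ r0] at h
  linarith

lemma ssum (A B : V n) : (nn A + nn B) ^ 2 ≤ 2 * (dd A A + dd B B) := by
  rw [← nn_sq, ← nn_sq]; exact sum_sq

lemma TH_rq_le (A B : V n) : |TH (sx s₁) (sy s₂) (rq g) z A B| ≤ 40 * (dd A A + dd B B) := by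
  have r0 := G.rr0
  have e1 : TH (sx s₁) (sy s₂) (rq g) z A B = rr g z * TH (sx s₁) (sy s₂) (rr g) z A B +
      GA (sx s₁) (sy s₂) (rr g) z A B ^ 2 := by
    rw [G.TH_rr_eq]; field_simp; ring
  have h1 := G.Tr A B
  obtain ⟨X, hX⟩ : ∃ X, X = sU (sx s₁) z A := ⟨_, rfl⟩
  obtain ⟨Y, hY⟩ : ∃ Y, Y = sU (sy s₂) z B := ⟨_, rfl⟩
  have nX : nn X ≤ 2 * nn A := by rw [hX]; exact G.nx2 A
  have nY : nn Y ≤ 2 * nn B := by rw [hY]; exact G.ny2 B
  have nQ : nn (X - Y) ≤ 2 * (nn A + nn B) := (nn_sub_le X Y).trans (by linarith)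
  rw [← hX, ← hY] at h1
  have ss := G.ssum A B
  have d0 := add_nonneg (dd_self_nonneg A) (dd_self_nonneg B)
  have Q1 : dd (X - Y) (X - Y) ≤ 8 * (dd A A + dd B B) := by
    have h2 := pow_le_pow_left₀ (nn_nonneg _) nQ 2
    rw [nn_sq] at h2
    linarith
  have Q2 : 0 ≤ dd (X - Y) (X - Y) - dd (hq z) (X - Y) ^ 2 := by
    have := dd_cs (hq z) (X - Y)
    rw [hq_one G.q0] at this
    linarith
  have g1 : |GA (sx s₁) (sy s₂) (rr g) z A B| ^ 2 ≤ (3 * (nn A + nn B)) ^ 2 :=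
    pow_le_pow_left₀ (abs_nonneg _) (G.GA_rr_le A B) 2
  rw [sq_abs] at g1
  have T1 : |rr g z * TH (sx s₁) (sy s₂) (rr g) z A B| ≤ 12 * (dd A A + dd B B) := by
    have e2 : rr g z * TH (sx s₁) (sy s₂) (rr g) z A B = rr g z *
        (TH (sx s₁) (sy s₂) (rr g) z A B - (rr g z)⁻¹ *
        (dd (X - Y) (X - Y) - dd (hq z) (X - Y) ^ 2)) +
        (dd (X - Y) (X - Y) - dd (hq z) (X - Y) ^ 2) := by field_simp; ring
    rw [e2]
    refine (abs_add_le _ _).trans ?_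
    rw [abs_mul, abs_of_pos r0, abs_of_nonneg Q2]
    have h3 := mul_le_mul_of_nonneg_left h1 r0.le
    have e3 : rr g z * (400 * ((n : ℝ) + 1) ^ 8 * t / rr g z * (dd A A + dd B B)) =
        4 * (100 * ((n : ℝ) + 1) ^ 8 * t) * (dd A A + dd B B) := by field_simp; ring
    rw [e3] at h3
    have h4 := mul_le_mul_of_nonneg_right G.tn d0
    have h5 := sq_nonneg (dd (hq z) (X - Y))
    linarith
  rw [e1]
  refine (abs_add_le _ _).trans ?_
  rw [abs_of_nonneg (sq_nonneg (GA (sx s₁) (sy s₂) (rr g) z A B))]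
  linarith

end Gd

/-! ### The level at the middle -/

section lev

variable {l : V n → ℝ}

lemma fd_lm (hO : IsOpen O) (hl : ContDiffOn ℝ ∞ l O) {z : VV n} (hm : mid z ∈ O) (w : VV n) :
    fderiv ℝ (fun z => l (mid z)) z w = fderiv ℝ l (mid z) (mid w) := by
  have h1 : HasFDerivAt l (fderiv ℝ l (mid z)) (midL n z) := (df_of hO hl hm).hasFDerivAt
  have h2 : HasFDerivAt (fun z => l (mid z)) ((fderiv ℝ l (mid z)).comp (midL n)) z :=
    h1.comp z (midL n).hasFDerivAt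
  rw [h2.fderiv]
  rfl

lemma sm_lm' (hl : ContDiffOn ℝ ∞ l O) : ContDiffOn ℝ ∞ (fun z => l (mid z))
    {z : VV n | mid z ∈ O} := hl.comp contDiff_mid.contDiffOn fun _ hz => hz

lemma fdd_lm (hO : IsOpen O) (hl : ContDiffOn ℝ ∞ l O) {z : VV n} (hm : mid z ∈ O) (w : VV n) :
    fderiv ℝ (fun z' => fderiv ℝ (fun z => l (mid z)) z' w) z w =
      fderiv ℝ (fun x => fderiv ℝ l x (mid w)) (mid z) (mid w) := by
  have ho : IsOpen {z : VV n | mid z ∈ O} := hO.preimage contDiff_mid.continuous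
  have e1 : (fun z' => fderiv ℝ (fun z => l (mid z)) z' w) =ᶠ[𝓝 z]
      fun z' => (fun x => fderiv ℝ l x (mid w)) (mid z') := by
    filter_upwards [ho.mem_nhds hm] with z' hz' using fd_lm hO hl hz' w
  have h : ContDiffOn ℝ ∞ (fun x => fderiv ℝ l x (mid w)) O :=
    (hl.fderiv_of_isOpen hO (by norm_num)).clm_apply contDiffOn_const
  rw [e1.fderiv_eq, fd_lm hO h hm w]

lemma fdd_pd (hO : IsOpen O) (hl : ContDiffOn ℝ ∞ l O) {x : V n} (hx : x ∈ O) (U : V n) :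
    fderiv ℝ (fun x => fderiv ℝ l x U) x U = ∑ i, ∑ j, U i * U j * pd j (pd i l) x := by
  have e1 : (fun x => fderiv ℝ l x U) = fun x => ∑ i, U i * pd i l x :=
    funext fun x => fd_pd l x U
  have d : ∀ i, DifferentiableAt ℝ (pd i l) x := fun i => df_of hO (sm_pd hO hl i) hx
  rw [e1, fderiv_fun_sum fun i _ => (d i).const_mul (U i)]
  simp only [_root_.sum_apply]
  refine Finset.sum_congr rfl fun i _ => ?_
  rw [fderiv_const_mul (d i)]
  simp only [_root_.smul_apply, smul_eq_mul]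
  rw [fd_pd, Finset.mul_sum]
  exact Finset.sum_congr rfl fun j _ => by ring

end lev

end Vale.Agent.P088.R2.H230.W
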