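import Vale.Agent.P088.R2.H230.W.Geo3

/-!
# P088, stage 3: the exponent `u = l(x) + l(y) + 2 χ(r²) μ(l(p))` in the slots
-/

open Set Filter
open scoped ContDiff Topology

noncomputable section

namespace Vale.Agent.P088.R2.H230.W

open Vale.Agent.P088.LR Vale.Agent.P088.HY Vale.Agent.P088.R2.H961.GW
open Vale.Agent.P088.R2.H464.Cu Vale.Agent.P088.R2.H644.Ch Vale.Agent.P088.R2.H31.EP

variable {n : ℕ} {O : Set (V n)} {ε δ₁ δ₂ h₀ h₁ t : ℝ} {s₁ s₂ g : MF n} {z : VV n}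
  {l : V n → ℝ} {χ μ : ℝ → ℝ} {γ β κ a c : ℝ}

/-- The correction. -/
def Tm (χ μ : ℝ → ℝ) (l : V n → ℝ) (g : MF n) (z : VV n) : ℝ :=
  2 * (χ (r2 g z) * μ (l (mid z)))

/-- The domain. -/
def Um (O : Set (V n)) : Set (VV n) := (O ×ˢ O) ∩ {z | mid z ∈ O}

lemma Um_open (hO : IsOpen O) : IsOpen (Um O) :=
  (hO.prod hO).inter (hO.preimage contDiff_mid.continuous)

/-- The gradient. -/
def grl (l : V n → ℝ) (x : V n) : V n := fun k => pd k l x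

lemma cp_fun {E : Type*} [NormedAddCommGroup E] [NormedSpace ℝ E] {U : Set E} {f : E → ℝ}
    (hf : Sm U f) (h : ContDiff ℝ ∞ χ) : Cp U f χ (deriv χ) (deriv (deriv χ)) := by
  have h1 : ContDiff ℝ ∞ (deriv χ) := (contDiff_infty_iff_deriv.1 h).2
  exact Cp.of hf h h1 (fun t => (h.contDiffAt.differentiableAt (by simp)).hasDerivAt)
    fun t => (h1.contDiffAt.differentiableAt (by simp)).hasDerivAt

lemma sm_r2' (hg : ∀ i j, ContDiffOn ℝ ∞ (fun x => g x i j) O) : Sm (Um O) (r2 g) := by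
  have h : Sm (Um O) fun z => 2 * rq g z :=
    contDiffOn_const.mul ((sm_rq hg).mono fun z hz => hz.2)
  exact h

lemma sm_lm2 (hl : ContDiffOn ℝ ∞ l O) : Sm (Um O) fun z => l (mid z) :=
  (sm_lm' hl).mono fun _ hz => hz.2

lemma sm_Tm (hg : ∀ i j, ContDiffOn ℝ ∞ (fun x => g x i j) O) (hl : ContDiffOn ℝ ∞ l O)
    (sχ : ContDiff ℝ ∞ χ) (sμ : ContDiff ℝ ∞ μ) : Sm (Um O) (Tm χ μ l g) := by
  have h : Sm (Um O) fun z => 2 * (χ (r2 g z) * μ (l (mid z))) :=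
    contDiffOn_const.mul ((sχ.comp_contDiffOn (sm_r2' hg)).mul
      (sμ.comp_contDiffOn (sm_lm2 hl)))
  exact h

lemma sm_uf2 (hl : ContDiffOn ℝ ∞ l O) : Sm (Um O) (uf l) :=
  (sm_uf hl).mono fun _ hz => hz.1

namespace Gd

variable (G : Gd O ε δ₁ δ₂ h₀ h₁ t s₁ s₂ g z)

include G

lemma mU : z ∈ Um O := ⟨⟨G.hx, G.hy⟩, G.hm⟩

lemma okx : (sx s₁).Ok (Um O) (tht (fun _ => 1) fun _ => 1) :=
  ok_x G.hO G.n₁ G.n₂ (Um_open G.hO) fun _ hz => hz.1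

lemma oky : (sy s₂).Ok (Um O) (tht (fun _ => 1) fun _ => 1) :=
  ok_y G.hO G.n₁ G.n₂ (Um_open G.hO) fun _ hz => hz.1

/-! ### `r²` -/

lemma gr_r2 : nn (gr (sx s₁) (r2 g) z) ≤ 3 * rr g z ∧ nn (gr (sy s₂) (r2 g) z) ≤ 3 * rr g z := by
  have sr : Sm (Um O) (rq g) := (sm_rq G.ng.sm).mono fun z hz => hz.2
  have e1 : gr (sx s₁) (r2 g) z = (2 : ℝ) • gr (sx s₁) (rq g) z :=
    gr_cmul G.okx sr G.mU 2
  have e2 : gr (sy s₂) (r2 g) z = (2 : ℝ) • gr (sy s₂) (rq g) z :=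
    gr_cmul G.oky sr G.mU 2
  have r0 := G.rr0
  have e3 : gr (sx s₁) (rq g) z = rr g z • gr (sx s₁) (rr g) z := by
    rw [G.gr_rr_x, smul_smul, mul_inv_cancel₀ r0.ne', one_smul]
  have e4 : gr (sy s₂) (rq g) z = rr g z • gr (sy s₂) (rr g) z := by
    rw [G.gr_rr_y, smul_smul, mul_inv_cancel₀ r0.ne', one_smul]
  have t1 := G.t1
  have n1 : nn (gr (sx s₁) (rr g) z) ≤ 3 / 2 := by
    have := nn_le_add (gr (sx s₁) (rr g) z) (hq z)
    rw [nn_one (hq_one G.q0)] at this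
    linarith [G.rx]
  have n2 : nn (gr (sy s₂) (rr g) z) ≤ 3 / 2 := by
    have := nn_le_add (gr (sy s₂) (rr g) z) (-hq z)
    rw [nn_neg, nn_one (hq_one G.q0), sub_neg_eq_add] at this
    linarith [G.ry]
  rw [e1, e2, e3, e4, nn_smul, nn_smul, nn_smul, nn_smul, abs_of_pos r0, abs_two]
  constructor
  · have := mul_le_mul_of_nonneg_left n1 r0.le
    linarith
  · have := mul_le_mul_of_nonneg_left n2 r0.le
    linarith

lemma GA_r2 (A B : V n) : |GA (sx s₁) (sy s₂) (r2 g) z A B| ≤ 6 * rr g z * (nn A + nn B) := by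
  have sr : Sm (Um O) (rq g) := (sm_rq G.ng.sm).mono fun z hz => hz.2
  have e1 : GA (sx s₁) (sy s₂) (r2 g) z A B = 2 * GA (sx s₁) (sy s₂) (rq g) z A B :=
    GA_cmul G.okx G.oky sr G.mU 2 A B
  rw [e1, abs_mul, abs_two]
  have := G.GA_rq_le A B
  linarith

lemma TH_r2 (A B : V n) : |TH (sx s₁) (sy s₂) (r2 g) z A B| ≤ 80 * (dd A A + dd B B) := by
  have sr : Sm (Um O) (rq g) := (sm_rq G.ng.sm).mono fun z hz => hz.2
  have e1 : TH (sx s₁) (sy s₂) (r2 g) z A B = 2 * TH (sx s₁) (sy s₂) (rq g) z A B :=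
    TH_cmul G.okx G.oky 2 sr G.mU A B
  rw [e1, abs_mul, abs_two]
  have := G.TH_rq_le A B
  linarith

/-! ### The level at the middle -/

lemma gr_lm_x (hl : ContDiffOn ℝ ∞ l O) :
    gr (sx s₁) (fun z => l (mid z)) z = (1 / 2 : ℝ) • grl l (mid z) := by
  funext k
  show (sx s₁).D k (fun z => l (mid z)) z = 1 / 2 * pd k l (mid z)
  rw [Dx1, fd_lm G.hO hl G.hm, mid_x, map_smul]
  rfl

lemma gr_lm_y (hl : ContDiffOn ℝ ∞ l O) :
    gr (sy s₂) (fun z => l (mid z)) z = (1 / 2 : ℝ) • grl l (mid z) := by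
  funext k
  show (sy s₂).D k (fun z => l (mid z)) z = 1 / 2 * pd k l (mid z)
  rw [Dy1, fd_lm G.hO hl G.hm, mid_y, map_smul]
  rfl

lemma nn_mid (A B : V n) : nn (mid ((up (s₁ z.1) A, up (s₂ z.2) B) : VV n)) ≤ nn A + nn B := by
  have e1 : mid ((up (s₁ z.1) A, up (s₂ z.2) B) : VV n) =
      (1 / 2 : ℝ) • (sU (sx s₁) z A + sU (sy s₂) z B) := by
    rw [sU_sx G.n₁.sy, sU_sy G.n₂.sy]; rfl
  rw [e1, nn_smul, abs_of_pos (by norm_num : (0:ℝ) < 1 / 2)]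
  have h1 := nn_add_le (sU (sx s₁) z A) (sU (sy s₂) z B)
  linarith [G.nx2 A, G.ny2 B]

lemma GA_lm (hl : ContDiffOn ℝ ∞ l O) (gl : nn (grl l (mid z)) ≤ 2) (A B : V n) :
    |GA (sx s₁) (sy s₂) (fun z => l (mid z)) z A B| ≤ 2 * (nn A + nn B) := by
  rw [GA_eq, fd_lm G.hO hl G.hm, fd_pd]
  have h1 := dd_le_nn (mid ((up (s₁ z.1) A, up (s₂ z.2) B) : VV n)) (grl l (mid z))
  refine h1.trans ?_
  have h2 := mul_le_mul (G.nn_mid A B) gl (nn_nonneg _)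
    (add_nonneg (nn_nonneg A) (nn_nonneg B))
  linarith

lemma nv_sum_le {N : ℝ} (hε1 : ε ≤ 1) {f : Fin n → ℝ} (hf : ∀ k, |f k| ≤ N) (A B : V n)
    (f' : Fin n → ℝ) (hf' : ∀ k, |f' k| ≤ N) :
    |(∑ k, f k * nv s₁ z.1 A k) + ∑ k, f' k * nv s₂ z.2 B k| ≤
      3 * n ^ 4 * δ₁ * N * (dd A A + dd B B) := by
  have t1 : |∑ k, f k * nv s₁ z.1 A k| ≤ n * (N * (n ^ 3 * (3 * δ₁ * ‖A‖ ^ 2))) := by
    refine sum_le1 fun k => ?_
    rw [abs_mul]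
    exact mul_le_mul (hf k) (nv_le G.n₁ hε1 G.hx A k) (abs_nonneg _)
      ((abs_nonneg _).trans (hf k))
  have t2 : |∑ k, f' k * nv s₂ z.2 B k| ≤ n * (N * (n ^ 3 * (3 * δ₁ * ‖B‖ ^ 2))) := by
    refine sum_le1 fun k => ?_
    rw [abs_mul]
    exact mul_le_mul (hf' k) (nv_le G.n₂ hε1 G.hy B k) (abs_nonneg _)
      ((abs_nonneg _).trans (hf' k))
  have hA : ‖A‖ ^ 2 ≤ dd A A := by
    rw [← nn_sq]; exact pow_le_pow_left₀ (norm_nonneg _) (norm_le_nn A) 2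
  have hB : ‖B‖ ^ 2 ≤ dd B B := by
    rw [← nn_sq]; exact pow_le_pow_left₀ (norm_nonneg _) (norm_le_nn B) 2
  rcases Nat.eq_zero_or_pos n with h0 | h0
  · subst h0
    simp
  have N0 : 0 ≤ N := (abs_nonneg _).trans (hf ⟨0, h0⟩)
  refine (abs_add_le _ _).trans ((add_le_add t1 t2).trans ?_)
  have e1 : (n : ℝ) * (N * (n ^ 3 * (3 * δ₁ * ‖A‖ ^ 2))) +
      n * (N * (n ^ 3 * (3 * δ₁ * ‖B‖ ^ 2))) = 3 * n ^ 4 * δ₁ * N * (‖A‖ ^ 2 + ‖B‖ ^ 2) := by ring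
  rw [e1]
  have := G.δ0
  exact mul_le_mul_of_nonneg_left (by linarith) (by positivity)

lemma TH_lm (hl : ContDiffOn ℝ ∞ l O) (gl : nn (grl l (mid z)) ≤ 2)
    (hess : ∀ U : V n, |∑ i, ∑ j, U i * U j * pd j (pd i l) (mid z)| ≤ dd U U)
    (hδ : 3 * n ^ 4 * δ₁ ≤ 1) (A B : V n) :
    |TH (sx s₁) (sy s₂) (fun z => l (mid z)) z A B| ≤ 3 * (dd A A + dd B B) := by
  have d1 : ∀ i j, DifferentiableAt ℝ (fun x => s₁ x i j) z.1 := fun i j =>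
    df_of G.hO (G.n₁.sm i j) G.hx
  have d2 : ∀ i j, DifferentiableAt ℝ (fun x => s₂ x i j) z.2 := fun i j =>
    df_of G.hO (G.n₂.sm i j) G.hy
  have hU := Um_open G.hO
  rw [TH_eq hU (sm_lm2 hl) G.mU G.n₁.sy G.n₂.sy d1 d2, fdd_lm G.hO hl G.hm,
    fdd_pd G.hO hl G.hm]
  have c1 : ∀ k, |dx k (fun z => l (mid z)) z| ≤ 1 := by
    intro k
    have e1 : dx k (fun z => l (mid z)) z = gr (sx s₁) (fun z => l (mid z)) z k := by
      show _ = (sx s₁).D k (fun z => l (mid z)) z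
      rw [Dx1]; rfl
    rw [e1]
    refine (abs_le_nn _ k).trans ?_
    rw [G.gr_lm_x hl, nn_smul, abs_of_pos (by norm_num : (0:ℝ) < 1 / 2)]
    linarith
  have c2 : ∀ k, |dy k (fun z => l (mid z)) z| ≤ 1 := by
    intro k
    have e1 : dy k (fun z => l (mid z)) z = gr (sy s₂) (fun z => l (mid z)) z k := by
      show _ = (sy s₂).D k (fun z => l (mid z)) z
      rw [Dy1]; rfl
    rw [e1]
    refine (abs_le_nn _ k).trans ?_
    rw [G.gr_lm_y hl, nn_smul, abs_of_pos (by norm_num : (0:ℝ) < 1 / 2)]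
    linarith
  have h1 := G.nv_sum_le (by linarith [G.εt, G.tt]) c1 A B _ c2
  have h2 := hess (mid ((up (s₁ z.1) A, up (s₂ z.2) B) : VV n))
  have h3 := pow_le_pow_left₀ (nn_nonneg _) (G.nn_mid A B) 2
  rw [nn_sq] at h3
  have h4 := G.ssum A B
  have d0 := add_nonneg (dd_self_nonneg A) (dd_self_nonneg B)
  have h5 := mul_le_mul_of_nonneg_right hδ d0
  rw [add_assoc]
  refine (abs_add_le _ _).trans ?_
  linarith

/-! ### The correction -/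

lemma gr_Tm_x (hl : ContDiffOn ℝ ∞ l O) (sχ : ContDiff ℝ ∞ χ) (sμ : ContDiff ℝ ∞ μ) :
    gr (sx s₁) (Tm χ μ l g) z =
      (2 * (deriv χ (r2 g z) * μ (l (mid z)))) • gr (sx s₁) (r2 g) z +
      (2 * (χ (r2 g z) * deriv μ (l (mid z)))) • gr (sx s₁) (fun z => l (mid z)) z := by
  have hU := Um_open G.hO
  have ca := cp_fun (sm_r2' G.ng.sm) sχ
  have cb := cp_fun (sm_lm2 hl) sμ
  funext i
  have e1 : (sx s₁).D i (Tm χ μ l g) z = 2 * (sx s₁).D i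
      (fun z => χ (r2 g z) * μ (l (mid z))) z :=
    D_cmul (sx s₁) hU 2 (ca.s0.mul cb.s0) i G.mU
  have e2 := D_mul (sx s₁) hU ca.s0 cb.s0 i G.mU
  have e3 := D_comp (σ := sx s₁) hU ca i G.mU
  have e4 := D_comp (σ := sx s₁) hU cb i G.mU
  simp only [gr, Pi.add_apply, Pi.smul_apply, smul_eq_mul]
  rw [e1, e2, e3, e4]
  ring

lemma gr_Tm_y (hl : ContDiffOn ℝ ∞ l O) (sχ : ContDiff ℝ ∞ χ) (sμ : ContDiff ℝ ∞ μ) :
    gr (sy s₂) (Tm χ μ l g) z =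
      (2 * (deriv χ (r2 g z) * μ (l (mid z)))) • gr (sy s₂) (r2 g) z +
      (2 * (χ (r2 g z) * deriv μ (l (mid z)))) • gr (sy s₂) (fun z => l (mid z)) z := by
  have hU := Um_open G.hO
  have ca := cp_fun (sm_r2' G.ng.sm) sχ
  have cb := cp_fun (sm_lm2 hl) sμ
  funext i
  have e1 : (sy s₂).D i (Tm χ μ l g) z = 2 * (sy s₂).D i
      (fun z => χ (r2 g z) * μ (l (mid z))) z :=
    D_cmul (sy s₂) hU 2 (ca.s0.mul cb.s0) i G.mU
  have e2 := D_mul (sy s₂) hU ca.s0 cb.s0 i G.mU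
  have e3 := D_comp (σ := sy s₂) hU ca i G.mU
  have e4 := D_comp (σ := sy s₂) hU cb i G.mU
  simp only [gr, Pi.add_apply, Pi.smul_apply, smul_eq_mul]
  rw [e1, e2, e3, e4]
  ring

lemma TH_Tm (hl : ContDiffOn ℝ ∞ l O) (sχ : ContDiff ℝ ∞ χ) (sμ : ContDiff ℝ ∞ μ) (A B : V n) :
    TH (sx s₁) (sy s₂) (Tm χ μ l g) z A B =
      2 * (χ (r2 g z) * (deriv μ (l (mid z)) * TH (sx s₁) (sy s₂) (fun z => l (mid z)) z A B +
          deriv (deriv μ) (l (mid z)) * GA (sx s₁) (sy s₂) (fun z => l (mid z)) z A B ^ 2) +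
        μ (l (mid z)) * (deriv χ (r2 g z) * TH (sx s₁) (sy s₂) (r2 g) z A B +
          deriv (deriv χ) (r2 g z) * GA (sx s₁) (sy s₂) (r2 g) z A B ^ 2) +
        2 * (deriv χ (r2 g z) * GA (sx s₁) (sy s₂) (r2 g) z A B *
          (deriv μ (l (mid z)) * GA (sx s₁) (sy s₂) (fun z => l (mid z)) z A B))) := by
  have ca := cp_fun (sm_r2' G.ng.sm) sχ
  have cb := cp_fun (sm_lm2 hl) sμ
  have e1 : TH (sx s₁) (sy s₂) (Tm χ μ l g) z A B = 2 * TH (sx s₁) (sy s₂)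
      (fun z => χ (r2 g z) * μ (l (mid z))) z A B :=
    TH_cmul G.okx G.oky 2 (ca.s0.mul cb.s0) G.mU A B
  rw [e1, TH_mul G.okx G.oky ca.s0 cb.s0 G.mU, TH_comp G.okx G.oky ca G.mU,
    TH_comp G.okx G.oky cb G.mU, GA_comp G.okx G.oky ca G.mU, GA_comp G.okx G.oky cb G.mU]

/-- Where the correction vanishes. -/
lemma Tm_zero (hl : ContDiffOn ℝ ∞ l O) (sχ : ContDiff ℝ ∞ χ) (sμ : ContDiff ℝ ∞ μ)
    (h : (χ (r2 g z) = 0 ∧ deriv χ (r2 g z) = 0 ∧ deriv (deriv χ) (r2 g z) = 0) ∨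
      (μ (l (mid z)) = 0 ∧ deriv μ (l (mid z)) = 0 ∧ deriv (deriv μ) (l (mid z)) = 0)) :
    gr (sx s₁) (Tm χ μ l g) z = 0 ∧ gr (sy s₂) (Tm χ μ l g) z = 0 ∧
      ∀ A B, TH (sx s₁) (sy s₂) (Tm χ μ l g) z A B = 0 := by
  rw [G.gr_Tm_x hl sχ sμ, G.gr_Tm_y hl sχ sμ]
  rcases h with ⟨h0, h1, h2⟩ | ⟨h0, h1, h2⟩
  · refine ⟨by simp [h0, h1], by simp [h0, h1], fun A B => ?_⟩
    rw [G.TH_Tm hl sχ sμ, h0, h1, h2]; ring
  · refine ⟨by simp [h0, h1], by simp [h0, h1], fun A B => ?_⟩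
    rw [G.TH_Tm hl sχ sμ, h0, h1, h2]; ring

/-- The size of the correction where `r ≤ 2`. -/
lemma Tm_bd (hl : ContDiffOn ℝ ∞ l O) (sχ : ContDiff ℝ ∞ χ) (sμ : ContDiff ℝ ∞ μ)
    (gl : nn (grl l (mid z)) ≤ 2)
    (hess : ∀ U : V n, |∑ i, ∑ j, U i * U j * pd j (pd i l) (mid z)| ≤ dd U U)
    (hδ : 3 * n ^ 4 * δ₁ ≤ 1) (hr : rr g z ≤ 2) (hγ : 1 ≤ γ)
    (c0 : |χ (r2 g z)| ≤ 1) (c1 : |deriv χ (r2 g z)| ≤ γ) (c2 : |deriv (deriv χ) (r2 g z)| ≤ γ)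
    (m0 : |μ (l (mid z))| ≤ β) (m1 : |deriv μ (l (mid z))| ≤ β)
    (m2 : |deriv (deriv μ) (l (mid z))| ≤ β) :
    nn (gr (sx s₁) (Tm χ μ l g) z) ≤ 14 * γ * β ∧ nn (gr (sy s₂) (Tm χ μ l g) z) ≤ 14 * γ * β ∧
      ∀ A B, |TH (sx s₁) (sy s₂) (Tm χ μ l g) z A B| ≤ 950 * γ * β * (dd A A + dd B B) := by
  have β0 : 0 ≤ β := (abs_nonneg _).trans m0
  have γ0 : 0 ≤ γ := by linarith
  have βγ : β ≤ γ * β := by nlinarith
  have r0 := G.rr0
  have lx : nn (gr (sx s₁) (fun z => l (mid z)) z) ≤ 1 := by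
    rw [G.gr_lm_x hl, nn_smul, abs_of_pos (by norm_num : (0:ℝ) < 1 / 2)]
    linarith
  have ly : nn (gr (sy s₂) (fun z => l (mid z)) z) ≤ 1 := by
    rw [G.gr_lm_y hl, nn_smul, abs_of_pos (by norm_num : (0:ℝ) < 1 / 2)]
    linarith
  have p1 : |2 * (deriv χ (r2 g z) * μ (l (mid z)))| ≤ 2 * (γ * β) := by
    rw [abs_mul, abs_mul, abs_two]
    exact mul_le_mul_of_nonneg_left (mul_le_mul c1 m0 (abs_nonneg _) γ0) (by norm_num)
  have p2 : |2 * (χ (r2 g z) * deriv μ (l (mid z)))| ≤ 2 * (1 * β) := by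
    rw [abs_mul, abs_mul, abs_two]
    exact mul_le_mul_of_nonneg_left (mul_le_mul c0 m1 (abs_nonneg _) zero_le_one) (by norm_num)
  have gb : ∀ {v w : V n}, nn v ≤ 3 * rr g z → nn w ≤ 1 →
      nn ((2 * (deriv χ (r2 g z) * μ (l (mid z)))) • v +
        (2 * (χ (r2 g z) * deriv μ (l (mid z)))) • w) ≤ 14 * γ * β := by
    intro v w hv hw
    refine (nn_add_le _ _).trans ?_
    rw [nn_smul, nn_smul]
    have h1 := mul_le_mul p1 (hv.trans (by linarith : 3 * rr g z ≤ 6)) (nn_nonneg _)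
      (by positivity)
    have h2 := mul_le_mul p2 hw (nn_nonneg _) (by linarith)
    linarith
  refine ⟨?_, ?_, fun A B => ?_⟩
  · rw [G.gr_Tm_x hl sχ sμ]; exact gb G.gr_r2.1 lx
  · rw [G.gr_Tm_y hl sχ sμ]; exact gb G.gr_r2.2 ly
  · rw [G.TH_Tm hl sχ sμ]
    obtain ⟨s, hs⟩ : ∃ s, s = nn A + nn B := ⟨_, rfl⟩
    obtain ⟨w, hw⟩ : ∃ w, w = dd A A + dd B B := ⟨_, rfl⟩
    have s0 : 0 ≤ s := by rw [hs]; exact add_nonneg (nn_nonneg _) (nn_nonneg _)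
    have w0 : 0 ≤ w := by rw [hw]; exact add_nonneg (dd_self_nonneg A) (dd_self_nonneg B)
    have ss := G.ssum A B
    have a1 := G.TH_lm hl gl hess hδ A B
    have a2 := G.GA_lm hl gl A B
    have a3 := G.TH_r2 A B
    have a4 : |GA (sx s₁) (sy s₂) (r2 g) z A B| ≤ 12 * (nn A + nn B) := by
      refine (G.GA_r2 A B).trans ?_
      rw [← hs]
      have := mul_le_mul_of_nonneg_right hr s0
      linarith
    rw [← hs] at ss a2 a4
    rw [← hw] at ss a1 a3 ⊢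
    have a2' : GA (sx s₁) (sy s₂) (fun z => l (mid z)) z A B ^ 2 ≤ 8 * w := by
      have := pow_le_pow_left₀ (abs_nonneg _) a2 2
      rw [sq_abs] at this
      linarith
    have a4' : GA (sx s₁) (sy s₂) (r2 g) z A B ^ 2 ≤ 288 * w := by
      have := pow_le_pow_left₀ (abs_nonneg _) a4 2
      rw [sq_abs] at this
      linarith
    have b1 : |deriv μ (l (mid z)) * TH (sx s₁) (sy s₂) (fun z => l (mid z)) z A B +
        deriv (deriv μ) (l (mid z)) * GA (sx s₁) (sy s₂) (fun z => l (mid z)) z A B ^ 2| ≤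
        β * (3 * w) + β * (8 * w) := by
      refine (abs_add_le _ _).trans (add_le_add ?_ ?_)
      · rw [abs_mul]; exact mul_le_mul m1 a1 (abs_nonneg _) β0
      · rw [abs_mul, abs_of_nonneg (sq_nonneg (GA (sx s₁) (sy s₂) _ z A B))]
        exact mul_le_mul m2 a2' (sq_nonneg _) β0
    have b2 : |deriv χ (r2 g z) * TH (sx s₁) (sy s₂) (r2 g) z A B +
        deriv (deriv χ) (r2 g z) * GA (sx s₁) (sy s₂) (r2 g) z A B ^ 2| ≤
        γ * (80 * w) + γ * (288 * w) := by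
      refine (abs_add_le _ _).trans (add_le_add ?_ ?_)
      · rw [abs_mul]; exact mul_le_mul c1 a3 (abs_nonneg _) γ0
      · rw [abs_mul, abs_of_nonneg (sq_nonneg (GA (sx s₁) (sy s₂) _ z A B))]
        exact mul_le_mul c2 a4' (sq_nonneg _) γ0
    have b3 : |deriv χ (r2 g z) * GA (sx s₁) (sy s₂) (r2 g) z A B *
        (deriv μ (l (mid z)) * GA (sx s₁) (sy s₂) (fun z => l (mid z)) z A B)| ≤
        γ * (12 * s) * (β * (2 * s)) := by
      rw [abs_mul, abs_mul, abs_mul]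
      exact mul_le_mul (mul_le_mul c1 a4 (abs_nonneg _) γ0)
        (mul_le_mul m1 a2 (abs_nonneg _) β0) (by positivity) (by positivity)
    have b4 := mul_le_mul c0 b1 (abs_nonneg _) zero_le_one
    have b5 := mul_le_mul m0 b2 (abs_nonneg _) β0
    rw [← abs_mul] at b4 b5
    rw [abs_mul, abs_two]
    have b6 := abs_add_le
      (χ (r2 g z) * (deriv μ (l (mid z)) * TH (sx s₁) (sy s₂) (fun z => l (mid z)) z A B +
          deriv (deriv μ) (l (mid z)) * GA (sx s₁) (sy s₂) (fun z => l (mid z)) z A B ^ 2) +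
        μ (l (mid z)) * (deriv χ (r2 g z) * TH (sx s₁) (sy s₂) (r2 g) z A B +
          deriv (deriv χ) (r2 g z) * GA (sx s₁) (sy s₂) (r2 g) z A B ^ 2))
      (2 * (deriv χ (r2 g z) * GA (sx s₁) (sy s₂) (r2 g) z A B *
          (deriv μ (l (mid z)) * GA (sx s₁) (sy s₂) (fun z => l (mid z)) z A B)))
    have b7 := abs_add_le
      (χ (r2 g z) * (deriv μ (l (mid z)) * TH (sx s₁) (sy s₂) (fun z => l (mid z)) z A B +
          deriv (deriv μ) (l (mid z)) * GA (sx s₁) (sy s₂) (fun z => l (mid z)) z A B ^ 2))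
        (μ (l (mid z)) * (deriv χ (r2 g z) * TH (sx s₁) (sy s₂) (r2 g) z A B +
          deriv (deriv χ) (r2 g z) * GA (sx s₁) (sy s₂) (r2 g) z A B ^ 2))
    have b8 : |2 * (deriv χ (r2 g z) * GA (sx s₁) (sy s₂) (r2 g) z A B *
          (deriv μ (l (mid z)) * GA (sx s₁) (sy s₂) (fun z => l (mid z)) z A B))| ≤
          2 * (γ * (12 * s) * (β * (2 * s))) := by
      rw [abs_mul, abs_two]; exact mul_le_mul_of_nonneg_left b3 (by norm_num)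
    have gβ0 : 0 ≤ γ * β := mul_nonneg γ0 β0
    have s2 := mul_le_mul_of_nonneg_left ss gβ0
    have w2 := mul_le_mul_of_nonneg_right βγ w0
    have w3 := mul_nonneg gβ0 w0
    linarith

end Gd

end Vale.Agent.P088.R2.H230.W
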