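import Vale.Agent.P088.R2.H230.W.Geo4

/-!
# P088, stage 3: gradient and Hessian form of the exponent `u` in the slots
-/

open Set Filter
open scoped ContDiff Topology

noncomputable section

namespace Vale.Agent.P088.R2.H230.W

open Vale.Agent.P088.LR Vale.Agent.P088.HY Vale.Agent.P088.R2.H961.GW
open Vale.Agent.P088.R2.H464.Cu Vale.Agent.P088.R2.H644.Ch Vale.Agent.P088.R2.H31.EP

variable {n : ℕ} {O : Set (V n)} {ε δ₁ δ₂ h₀ h₁ t : ℝ} {s₁ s₂ g : MF n} {z : VV n}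
  {l : V n → ℝ} {χ μ : ℝ → ℝ} {γ β κ a c : ℝ}

namespace Gd

variable (G : Gd O ε δ₁ δ₂ h₀ h₁ t s₁ s₂ g z)

include G

lemma gr_uf_x (hl : ContDiffOn ℝ ∞ l O) : gr (sx s₁) (uf l) z = grl l z.1 := by
  funext k
  have h := gx_uf G.hO hl G.hx G.hy k
  show (sx s₁).D k (uf l) z = pd k l z.1
  rw [Dx1]; exact h

lemma gr_uf_y (hl : ContDiffOn ℝ ∞ l O) : gr (sy s₂) (uf l) z = grl l z.2 := by
  funext k
  have h := gy_uf G.hO hl G.hx G.hy k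
  show (sy s₂).D k (uf l) z = pd k l z.2
  rw [Dy1]; exact h

lemma uu_gr_x (hl : ContDiffOn ℝ ∞ l O) {F : Fu} (sχ : ContDiff ℝ ∞ F.χ)
    (sμ : ContDiff ℝ ∞ F.μ) :
    gr (sx s₁) (uu F l g) z = grl l z.1 + gr (sx s₁) (Tm F.χ F.μ l g) z := by
  rw [← G.gr_uf_x hl]
  funext k
  exact D_add (sx s₁) (Um_open G.hO) (sm_uf2 hl) (sm_Tm G.ng.sm hl sχ sμ) k G.mU

lemma uu_gr_y (hl : ContDiffOn ℝ ∞ l O) {F : Fu} (sχ : ContDiff ℝ ∞ F.χ)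
    (sμ : ContDiff ℝ ∞ F.μ) :
    gr (sy s₂) (uu F l g) z = grl l z.2 + gr (sy s₂) (Tm F.χ F.μ l g) z := by
  rw [← G.gr_uf_y hl]
  funext k
  exact D_add (sy s₂) (Um_open G.hO) (sm_uf2 hl) (sm_Tm G.ng.sm hl sχ sμ) k G.mU

lemma uu_TH (hl : ContDiffOn ℝ ∞ l O) {F : Fu} (sχ : ContDiff ℝ ∞ F.χ)
    (sμ : ContDiff ℝ ∞ F.μ) (A B : V n) : TH (sx s₁) (sy s₂) (uu F l g) z A B =
      TH (sx s₁) (sy s₂) (uf l) z A B + TH (sx s₁) (sy s₂) (Tm F.χ F.μ l g) z A B :=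
  TH_add G.okx G.oky (sm_uf2 hl) (sm_Tm G.ng.sm hl sχ sμ) G.mU A B

lemma nx3 (A : V n) : 49 / 50 * dd A A ≤ dd (sU (sx s₁) z A) (sU (sx s₁) z A) := by
  have h1 := G.nx A
  have h2 := nn_le_add A (sU (sx s₁) z A)
  rw [nn_sub_comm] at h2
  have h3 := mul_le_mul_of_nonneg_right G.nt (nn_nonneg A)
  have h4 : 99 / 100 * nn A ≤ nn (sU (sx s₁) z A) := by linarith
  have h5 := pow_le_pow_left₀ (mul_nonneg (by norm_num) (nn_nonneg A)) h4 2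
  rw [mul_pow, nn_sq, nn_sq] at h5
  linarith [dd_self_nonneg A]

lemma ny3 (A : V n) : 49 / 50 * dd A A ≤ dd (sU (sy s₂) z A) (sU (sy s₂) z A) := by
  have h1 := G.ny A
  have h2 := nn_le_add A (sU (sy s₂) z A)
  rw [nn_sub_comm] at h2
  have h3 := mul_le_mul_of_nonneg_right G.nt (nn_nonneg A)
  have h4 : 99 / 100 * nn A ≤ nn (sU (sy s₂) z A) := by linarith
  have h5 := pow_le_pow_left₀ (mul_nonneg (by norm_num) (nn_nonneg A)) h4 2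
  rw [mul_pow, nn_sq, nn_sq] at h5
  linarith [dd_self_nonneg A]

/-- The lower bound of the Hessian form of `l(x) + l(y)`. -/
lemma TH_uf_ge (hl : ContDiffOn ℝ ∞ l O) (hc : 0 ≤ c) (g1 : ∀ k, |pd k l z.1| ≤ 2)
    (g2 : ∀ k, |pd k l z.2| ≤ 2)
    (c1 : ∀ U : V n, c * dd U U ≤ ∑ i, ∑ j, U i * U j * pd j (pd i l) z.1)
    (c2 : ∀ U : V n, c * dd U U ≤ ∑ i, ∑ j, U i * U j * pd j (pd i l) z.2) (A B : V n) :
    (49 / 50 * c - 6 * n ^ 4 * δ₁) * (dd A A + dd B B) ≤ TH (sx s₁) (sy s₂) (uf l) z A B := by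
  have d1 : ∀ i j, DifferentiableAt ℝ (fun x => s₁ x i j) z.1 := fun i j =>
    df_of G.hO (G.n₁.sm i j) G.hx
  have d2 : ∀ i j, DifferentiableAt ℝ (fun x => s₂ x i j) z.2 := fun i j =>
    df_of G.hO (G.n₂.sm i j) G.hy
  have hU := Um_open G.hO
  rw [TH_eq hU (sm_uf2 hl) G.mU G.n₁.sy G.n₂.sy d1 d2, dd_uf G.hO hl G.hx G.hy,
    fdd_pd G.hO hl G.hx, fdd_pd G.hO hl G.hy]
  have e1 : ∀ k, dx k (uf l) z = pd k l z.1 := fun k => gx_uf G.hO hl G.hx G.hy k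
  have e2 : ∀ k, dy k (uf l) z = pd k l z.2 := fun k => gy_uf G.hO hl G.hx G.hy k
  simp only [e1, e2]
  have h1 := G.nv_sum_le (by linarith [G.εt, G.tt]) g1 A B _ g2
  have h2 := (abs_le.1 h1).1
  have h3 := c1 (up (s₁ z.1) A)
  have h4 := c2 (up (s₂ z.2) B)
  have h5 := mul_le_mul_of_nonneg_left (G.nx3 A) hc
  have h6 := mul_le_mul_of_nonneg_left (G.ny3 B) hc
  rw [sU_sx G.n₁.sy] at h5
  rw [sU_sy G.n₂.sy] at h6
  linarith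

/-- **The gradients of `u`.** -/
lemma uu_near (hl : ContDiffOn ℝ ∞ l O) {F : Fu} (sχ : ContDiff ℝ ∞ F.χ)
    (sμ : ContDiff ℝ ∞ F.μ) {e : V n} {b : ℝ} (k1 : nn (grl l z.1 - e) ≤ a)
    (k2 : nn (grl l z.2 - e) ≤ a) (b1 : nn (gr (sx s₁) (Tm F.χ F.μ l g) z) ≤ b)
    (b2 : nn (gr (sy s₂) (Tm F.χ F.μ l g) z) ≤ b) :
    nn (gr (sx s₁) (uu F l g) z - e) ≤ a + b ∧ nn (gr (sy s₂) (uu F l g) z - e) ≤ a + b := by
  rw [G.uu_gr_x hl sχ sμ, G.uu_gr_y hl sχ sμ]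
  have e1 : ∀ v w : V n, v + w - e = (v - e) + w := fun v w => by abel
  rw [e1, e1]
  exact ⟨(nn_add_le _ _).trans (add_le_add k1 b1), (nn_add_le _ _).trans (add_le_add k2 b2)⟩

/-- **The Hessian form of `u`.** -/
lemma uu_TH_ge (hl : ContDiffOn ℝ ∞ l O) {F : Fu} (sχ : ContDiff ℝ ∞ F.χ)
    (sμ : ContDiff ℝ ∞ F.μ) (hc : 0 ≤ c) (g1 : ∀ k, |pd k l z.1| ≤ 2)
    (g2 : ∀ k, |pd k l z.2| ≤ 2)
    (c1 : ∀ U : V n, c * dd U U ≤ ∑ i, ∑ j, U i * U j * pd j (pd i l) z.1)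
    (c2 : ∀ U : V n, c * dd U U ≤ ∑ i, ∑ j, U i * U j * pd j (pd i l) z.2) {b : ℝ}
    (bT : ∀ A B, |TH (sx s₁) (sy s₂) (Tm F.χ F.μ l g) z A B| ≤ b * (dd A A + dd B B))
    (A B : V n) :
    (49 / 50 * c - 6 * n ^ 4 * δ₁ - b) * (dd A A + dd B B) ≤
      TH (sx s₁) (sy s₂) (uu F l g) z A B := by
  rw [G.uu_TH hl sχ sμ]
  have h1 := G.TH_uf_ge hl hc g1 g2 c1 c2 A B
  have h2 := (abs_le.1 (bT A B)).1
  linarith

end Gd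

end Vale.Agent.P088.R2.H230.W
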