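import Vale.Agent.P088.R2.H230.W.Geo5
import Vale.Agent.P088.R2.H475.INF.LevR

/-!
# P088, stage 3: the global level at the points of zone A

`t = |w|`, `l = λ₀ + (R/σ) Ga(t²)`, `|∇l| = t pp(t²)`.
-/

open Set Filter
open scoped ContDiff Topology

noncomputable section

namespace Vale.Agent.P088.R2.H230.W

open Vale.Agent.P088.LR Vale.Agent.P088.HY Vale.Agent.P088.R2.H961.GW
open Vale.Agent.P088.R2.H464.Cu Vale.Agent.P088.R2.H475

variable {n : ℕ} {σ R kap Gs : ℝ}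

lemma nn_en (v : V n) : nn v = √(HY.sq v) := by
  unfold nn dd HY.sq
  congr 1
  exact Finset.sum_congr rfl fun i _ => by ring

lemma dd_sq (v : V n) : dd v v = HY.sq v := by
  unfold dd HY.sq
  exact Finset.sum_congr rfl fun i _ => by ring

/-! ### The function `t ↦ Ga (t²)` -/

lemma hda_Ga (h0 : 0 < σ) (h1 : σ ≤ 1 / 5000) (t : ℝ) :
    HasDerivAt (fun t => Ga σ (t ^ 2)) (t * pp σ (t ^ 2)) t := by
  have h2 : HasDerivAt (fun t : ℝ => t ^ 2) (2 * t) t := by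
    simpa using hasDerivAt_pow 2 t
  have h3 := (hasDerivAt_Ga h0 h1 (θ := t ^ 2) (by positivity)).comp t h2
  refine h3.congr_deriv ?_
  ring

/-- The upper bound of the increase. -/
lemma Ga_up (h0 : 0 < σ) (h1 : σ ≤ 1 / 5000) {s t : ℝ} (hs : 0 ≤ s) (hst : s ≤ t)
    (ht : t ≤ 101 / 100) : Ga σ (t ^ 2) - Ga σ (s ^ 2) ≤ 101 / 100 * (t - s) := by
  have hd : ∀ x, HasDerivAt (fun t => Ga σ (t ^ 2)) (x * pp σ (x ^ 2)) x := hda_Ga h0 h1
  have h2 := Convex.norm_image_sub_le_of_norm_hasDerivWithin_le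
    (f := fun t => Ga σ (t ^ 2)) (f' := fun x => x * pp σ (x ^ 2)) (s := Icc s t) (C := 101 / 100)
    (fun x _ => (hd x).hasDerivWithinAt) (fun x hx => ?_) (convex_Icc s t)
    (left_mem_Icc.2 hst) (right_mem_Icc.2 hst)
  · rw [Real.norm_eq_abs, Real.norm_eq_abs, abs_of_nonneg (sub_nonneg.2 hst)] at h2
    exact (le_abs_self _).trans h2
  · have x0 : 0 ≤ x := hs.trans hx.1
    have p0 : 0 ≤ pp σ (x ^ 2) := by linarith [pp_pos h0 h1 (sq_nonneg x)]
    rw [Real.norm_eq_abs, abs_of_nonneg (mul_nonneg x0 p0)]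
    exact (t_pp_le h0 h1 x0).trans (max_le (by norm_num) (hx.2.trans ht))

/-- The lower bound of the increase. -/
lemma Ga_lo (h0 : 0 < σ) (h1 : σ ≤ 1 / 5000) {s t : ℝ} (hs : 2 / 25 ≤ s) (hst : s ≤ t) :
    24 / 25 * (t - s) ≤ Ga σ (t ^ 2) - Ga σ (s ^ 2) := by
  have hd : ∀ x, HasDerivAt (fun t => Ga σ (t ^ 2)) (x * pp σ (x ^ 2)) x := hda_Ga h0 h1
  have hg : ∀ x, HasDerivAt (fun t => Ga σ (t ^ 2) - 24 / 25 * t) (x * pp σ (x ^ 2) - 24 / 25) x :=
    fun x => ((hd x).fun_sub ((hasDerivAt_id x).const_mul (24 / 25))).congr_deriv (by simp)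
  have hm : MonotoneOn (fun t => Ga σ (t ^ 2) - 24 / 25 * t) (Icc s t) := by
    refine monotoneOn_of_deriv_nonneg (convex_Icc s t)
      (fun x _ => (hg x).continuousAt.continuousWithinAt)
      (fun x _ => (hg x).differentiableAt.differentiableWithinAt) fun x hx => ?_
    rw [(hg x).deriv]
    rw [interior_Icc] at hx
    have := t_pp_ge h0 h1 (hs.trans hx.1.le)
    linarith
  have h2 := hm (left_mem_Icc.2 hst) (right_mem_Icc.2 hst) hst
  simp only at h2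
  linarith

/-! ### Points -/

/-- `|w|`. -/
def tw (n : ℕ) (σ R : ℝ) (x : V n) : ℝ := nn (wR n σ R x)

lemma tw_nonneg (x : V n) : 0 ≤ tw n σ R x := nn_nonneg _

lemma tw_sq (x : V n) : tw n σ R x ^ 2 = HY.sq (wR n σ R x) := by
  unfold tw; rw [nn_sq, dd_sq]

lemma lev_eq (h0 : 0 < σ) (x : V n) : levG n σ R kap Gs x =
    lam0 R kap Gs + R / σ * Ga σ (tw n σ R x ^ 2) := by
  rw [levG_eq, tw_sq]
  unfold gg wR
  field_simp

lemma tw_le (h0 : 0 < σ) (hR : 0 < R) (x y : V n) :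
    tw n σ R x ≤ tw n σ R y + σ / R * nn (x - y) := by
  unfold tw
  rw [nn_en, nn_en, nn_en]
  exact en_wR_le h0 hR x y

lemma grl_lev (h0 : 0 < σ) (h1 : σ ≤ 1 / 5000) (hR : 0 < R) (x : V n) :
    grl (levG n σ R kap Gs) x = pp σ (tw n σ R x ^ 2) • wR n σ R x := by
  funext k
  show pd k (levG n σ R kap Gs) x = _
  rw [pd_levG h0 h1 hR, tw_sq]
  rfl

lemma nn_grl (h0 : 0 < σ) (h1 : σ ≤ 1 / 5000) (hR : 0 < R) (x : V n) :
    nn (grl (levG n σ R kap Gs) x) = tw n σ R x * pp σ (tw n σ R x ^ 2) := by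
  have p0 : 0 ≤ pp σ (tw n σ R x ^ 2) := by linarith [pp_pos h0 h1 (sq_nonneg (tw n σ R x))]
  rw [grl_lev h0 h1 hR, nn_smul, abs_of_nonneg p0, mul_comm]
  rfl

lemma nn_grl_le (h0 : 0 < σ) (h1 : σ ≤ 1 / 5000) (hR : 0 < R) {x : V n} {T : ℝ} (hT : 1 ≤ T)
    (h : tw n σ R x ≤ T) : nn (grl (levG n σ R kap Gs) x) ≤ T := by
  rw [nn_grl h0 h1 hR]
  exact (t_pp_le h0 h1 (tw_nonneg x)).trans (max_le hT h)

lemma nn_grl_ge (h0 : 0 < σ) (h1 : σ ≤ 1 / 5000) (hR : 0 < R) {x : V n}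
    (h : 2 / 25 ≤ tw n σ R x) : 24 / 25 ≤ nn (grl (levG n σ R kap Gs) x) := by
  rw [nn_grl h0 h1 hR]
  exact t_pp_ge h0 h1 h

/-- Near the sphere the gradient is a unit vector. -/
lemma nn_grl_one (h0 : 0 < σ) (h1 : σ ≤ 1 / 5000) (hR : 0 < R) {x : V n}
    (h : 1 - 5 * σ ≤ tw n σ R x) (h' : tw n σ R x ≤ 1 + 5 * σ) :
    |nn (grl (levG n σ R kap Gs) x) - 1| ≤ 11 * σ := by
  have h2 := nn_grl_le (kap := kap) (Gs := Gs) h0 h1 hR (by linarith : 1 ≤ 1 + 5 * σ) h'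
  have h3 : 1 - 11 * σ ≤ nn (grl (levG n σ R kap Gs) x) := by
    rw [nn_grl h0 h1 hR]
    have h4 := pp_ge h0 h1 (sq_nonneg (tw n σ R x))
    have h5 : (1 - 5 * σ) * (1 - 6 * σ) ≤ tw n σ R x * pp σ (tw n σ R x ^ 2) :=
      mul_le_mul h h4 (by linarith) (tw_nonneg x)
    nlinarith
  rw [abs_le]
  constructor <;> linarith

/-- A point of low level is outside of the vertex. -/
lemma tw_ge_of (h0 : 0 < σ) (h1 : σ ≤ 1 / 5000) (hR : 0 < R) {x : V n}
    (h : lam0 R kap Gs - 86 / 100 * (R / σ) ≤ levG n σ R kap Gs x) :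
    119 / 1000 ≤ tw n σ R x := by
  by_contra hc
  have hc' : tw n σ R x < 119 / 1000 := not_le.1 hc
  have hρ : 0 < R / σ := div_pos hR h0
  rw [lev_eq h0] at h
  have h2 : Ga σ (tw n σ R x ^ 2) ≤ -(8605 / 10000) := by
    have d1 : Ga σ ((2 / 25 : ℝ) ^ 2) ≤ -(9 / 10) := Ga_deep h0 h1 (by norm_num)
    rcases le_total (tw n σ R x) (2 / 25) with h3 | h3
    · have := Ga_up h0 h1 (tw_nonneg x) h3 (by norm_num)
      have hm := (Ga_mono h0 h1).monotoneOn (mem_Ici.2 (sq_nonneg (tw n σ R x)))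
        (mem_Ici.2 (sq_nonneg (2 / 25 : ℝ))) (pow_le_pow_left₀ (tw_nonneg x) h3 2)
      linarith
    · have := Ga_up h0 h1 (by norm_num) h3 (by linarith)
      linarith
  have h4 : R / σ * (-(86 / 100)) ≤ R / σ * Ga σ (tw n σ R x ^ 2) := by linarith
  have h5 := le_of_mul_le_mul_left h4 hρ
  linarith

/-- A point of level at least `λ₀ - 3 R` is near the sphere. -/
lemma tw_ge_one (h0 : 0 < σ) (h1 : σ ≤ 1 / 5000) (hR : 0 < R) {x : V n}
    (h : lam0 R kap Gs - 3 * R ≤ levG n σ R kap Gs x) : 1 - 4 * σ ≤ tw n σ R x := by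
  by_contra hc
  have hc' : tw n σ R x < 1 - 4 * σ := not_le.1 hc
  have hρ : 0 < R / σ := div_pos hR h0
  have h2 : 119 / 1000 ≤ tw n σ R x := by
    refine tw_ge_of (kap := kap) (Gs := Gs) h0 h1 hR (le_trans ?_ h)
    have : 5000 * R ≤ R / σ := by
      rw [le_div_iff₀ h0]
      nlinarith
    linarith
  have h3 := Ga_lo h0 h1 (s := tw n σ R x) (t := 1) (by linarith) (by linarith)
  rw [one_pow, Ga_one] at h3
  rw [lev_eq h0] at h
  have h4 : Ga σ (tw n σ R x ^ 2) ≤ -(24 / 25 * (4 * σ)) := by linarith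
  have h5 := mul_le_mul_of_nonneg_left h4 hρ.le
  have e1 : R / σ * -(24 / 25 * (4 * σ)) = -(96 / 25 * R) := by field_simp; ring
  rw [e1] at h5
  linarith

/-- A point of level at most `λ₀ + 5/2 R`. -/
lemma tw_le_one (h0 : 0 < σ) (h1 : σ ≤ 1 / 5000) (hR : 0 < R) {x : V n}
    (h : levG n σ R kap Gs x ≤ lam0 R kap Gs + 5 / 2 * R) : tw n σ R x ≤ 1 + 3 * σ := by
  by_contra hc
  have hc' : 1 + 3 * σ < tw n σ R x := not_le.1 hc
  have hρ : 0 < R / σ := div_pos hR h0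
  have h3 := Ga_lo h0 h1 (s := 1) (t := tw n σ R x) (by norm_num) (by linarith)
  rw [one_pow, Ga_one] at h3
  rw [lev_eq h0] at h
  have h4 : 24 / 25 * (3 * σ) < Ga σ (tw n σ R x ^ 2) := by linarith
  have h5 := mul_lt_mul_of_pos_left h4 hρ
  have e1 : R / σ * (24 / 25 * (3 * σ)) = 72 / 25 * R := by field_simp; norm_num
  rw [e1] at h5
  linarith

/-- The level is Lipschitz. -/
lemma lev_lip (h0 : 0 < σ) (h1 : σ ≤ 1 / 5000) (hR : 0 < R) {x y : V n}
    (hx : tw n σ R x ≤ 101 / 100) :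
    levG n σ R kap Gs x ≤ levG n σ R kap Gs y + 101 / 100 * nn (x - y) := by
  have hρ : 0 < R / σ := div_pos hR h0
  have hn := nn_nonneg (x - y)
  rcases le_total (tw n σ R x) (tw n σ R y) with h | h
  · have hm := (Ga_mono h0 h1).monotoneOn (mem_Ici.2 (sq_nonneg (tw n σ R x)))
      (mem_Ici.2 (sq_nonneg (tw n σ R y))) (pow_le_pow_left₀ (tw_nonneg x) h 2)
    rw [lev_eq h0, lev_eq h0]
    have := mul_le_mul_of_nonneg_left hm hρ.le
    linarith
  · have h2 := Ga_up h0 h1 (tw_nonneg y) h hx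
    have h3 := tw_le h0 hR x y
    rw [lev_eq h0, lev_eq h0]
    have h4 : Ga σ (tw n σ R x ^ 2) - Ga σ (tw n σ R y ^ 2) ≤
        101 / 100 * (σ / R * nn (x - y)) := by linarith
    have h5 := mul_le_mul_of_nonneg_left h4 hρ.le
    have e1 : R / σ * (101 / 100 * (σ / R * nn (x - y))) = 101 / 100 * nn (x - y) := by
      field_simp
    rw [e1] at h5
    linarith

/-- The entries of the Hessian of the level. -/
lemma pd2_le (h0 : 0 < σ) (h1 : σ ≤ 1 / 5000) (hR : 0 < R) (i j : Fin n) (x : V n) :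
    |pd j (pd i (levG n σ R kap Gs)) x| ≤ 508 * (σ / R) := by
  obtain ⟨θ, hθ⟩ : ∃ θ, θ = HY.sq (wR n σ R x) := ⟨_, rfl⟩
  have θ0 : 0 ≤ θ := by rw [hθ]; exact sq0 _
  have hs : 0 < σ / R := div_pos h0 hR
  rw [pd2_levG h0 h1 hR, ← hθ, abs_mul, abs_of_pos hs, mul_comm]
  refine mul_le_mul_of_nonneg_right ?_ hs.le
  have hg := pp'_ge h0 h1 θ0
  have hl := pp'_le h0 h1 θ0
  have hp := pp_pos h0 h1 θ0
  have hpl := pp_le h0 h1 θ0
  have a1 : |pp σ θ * (if i = j then (1:ℝ) else 0)| ≤ 98 := by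
    rw [abs_mul, abs_of_pos (by linarith)]
    split_ifs
    · rw [abs_one, mul_one]; exact hpl
    · rw [abs_zero, mul_zero]; norm_num
  have a2 : |wR n σ R x i * wR n σ R x j| ≤ θ := by
    have b1 := abs_le_nn (wR n σ R x) i
    have b2 := abs_le_nn (wR n σ R x) j
    rw [abs_mul, hθ, ← dd_sq, ← nn_mul_self]
    exact mul_le_mul b1 b2 (abs_nonneg _) (nn_nonneg _)
  have a3 : |2 * pp' σ θ * (wR n σ R x i * wR n σ R x j)| ≤ |2 * θ * pp' σ θ| := by
    rw [abs_mul, show 2 * θ * pp' σ θ = 2 * pp' σ θ * θ by ring, abs_mul (2 * pp' σ θ) θ,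
      abs_of_nonneg θ0]
    exact mul_le_mul_of_nonneg_left a2 (abs_nonneg _)
  have a4 : |2 * θ * pp' σ θ| ≤ 410 := by
    rw [abs_le]; constructor <;> linarith
  refine (abs_add_le _ _).trans ?_
  linarith

/-- The gradient varies slowly. -/
lemma grl_diff (h0 : 0 < σ) (h1 : σ ≤ 1 / 5000) (hR : 0 < R) (x y : V n) :
    nn (grl (levG n σ R kap Gs) x - grl (levG n σ R kap Gs) y) ≤
      508 * (n : ℝ) ^ 2 * (σ / R) * nn (x - y) := by
  have hs : 0 < σ / R := div_pos h0 hR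
  have hl : ContDiffOn ℝ ∞ (levG n σ R kap Gs) univ := (levG_smooth h0 h1).contDiffOn
  have h2 : ∀ k, |(grl (levG n σ R kap Gs) x - grl (levG n σ R kap Gs) y) k| ≤
      n * (508 * (σ / R)) * nn (x - y) := by
    intro k
    have h3 := mv_le isOpen_univ convex_univ (sm_pd isOpen_univ hl k)
      (δ := 508 * (σ / R)) (by positivity) (fun x _ j => pd2_le h0 h1 hR k j x)
      (mem_univ x) (mem_univ y)
    refine h3.trans (mul_le_mul_of_nonneg_left (norm_le_nn _) (by positivity))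
  have h4 := nn_le_card' (ι := Fin n) (mul_nonneg (by positivity) (nn_nonneg _)) h2
  rw [Fintype.card_fin] at h4
  refine h4.trans (le_of_eq (by ring))

end Vale.Agent.P088.R2.H230.W
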