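import Vale.Agent.P088.R2.H230.W.Geo6
import Vale.Agent.P088.R2.H747.A.Rows
import Vale.Agent.P088.R2.H657.W.Fam

/-!
# P088, stage 3: the functions of one variable of the correction; the tensors of the package
-/

open Set Filter
open scoped ContDiff Topology

noncomputable section

namespace Vale.Agent.P088.R2.H230.W

open Vale.Agent.P088.LR Vale.Agent.P088.HY Vale.Agent.P088.R2.H961.GW
open Vale.Agent.P088.R2.H464.Cu Vale.Agent.P088.R2.H31.EP Vale.Agent.P088.R2.H475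

/-! ### Functions which are constant outside of an interval -/

section one

variable {χ : ℝ → ℝ} {a b c e : ℝ}

lemma sm_deriv (h : ContDiff ℝ ∞ χ) : ContDiff ℝ ∞ (deriv χ) := (contDiff_infty_iff_deriv.1 h).2

lemma flat_r (h : ContDiff ℝ ∞ χ) (hb : ∀ s, b ≤ s → χ s = e) : ∀ s, b ≤ s → deriv χ s = 0 := by
  have hc : IsClosed {s | deriv χ s = 0} :=
    isClosed_eq (sm_deriv h).continuous continuous_const
  have h1 : Ioi b ⊆ {s | deriv χ s = 0} := by
    intro s hs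
    have e1 : χ =ᶠ[𝓝 s] fun _ => e := by
      filter_upwards [isOpen_Ioi.mem_nhds hs] with x hx using hb x (le_of_lt hx)
    show deriv χ s = 0
    rw [e1.deriv_eq, deriv_const]
  intro s hs
  have h2 := hc.closure_subset_iff.2 h1
  rw [closure_Ioi] at h2
  exact h2 hs

lemma flat_l (h : ContDiff ℝ ∞ χ) (hb : ∀ s, s ≤ b → χ s = e) : ∀ s, s ≤ b → deriv χ s = 0 := by
  have hc : IsClosed {s | deriv χ s = 0} :=
    isClosed_eq (sm_deriv h).continuous continuous_const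
  have h1 : Iio b ⊆ {s | deriv χ s = 0} := by
    intro s hs
    have e1 : χ =ᶠ[𝓝 s] fun _ => e := by
      filter_upwards [isOpen_Iio.mem_nhds hs] with x hx using hb x (le_of_lt hx)
    show deriv χ s = 0
    rw [e1.deriv_eq, deriv_const]
  intro s hs
  have h2 := hc.closure_subset_iff.2 h1
  rw [closure_Iio] at h2
  exact h2 hs

lemma bd_supp {f : ℝ → ℝ} (hf : Continuous f) (ha : ∀ s, s ≤ a → f s = 0)
    (hb : ∀ s, b ≤ s → f s = 0) : ∃ C, 1 ≤ C ∧ ∀ x, |f x| ≤ C := by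
  obtain ⟨C, hC⟩ := (isCompact_Icc (a := a) (b := b)).exists_bound_of_continuousOn
    hf.continuousOn
  refine ⟨max 1 C, le_max_left _ _, fun x => ?_⟩
  by_cases h : x ∈ Icc a b
  · exact (hC x h).trans (le_max_right _ _)
  · have h0 : f x = 0 := by
      rcases lt_or_ge x a with h1 | h1
      · exact ha x h1.le
      · rcases lt_or_ge b x with h2 | h2
        · exact hb x h2.le
        · exact absurd ⟨h1, h2⟩ h
    rw [h0, abs_zero]
    exact zero_le_one.trans (le_max_left _ _)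

lemma der_bd (h : ContDiff ℝ ∞ χ) (ha : ∀ s, s ≤ a → χ s = c) (hb : ∀ s, b ≤ s → χ s = e) :
    ∃ C, 1 ≤ C ∧ ∀ x, |deriv χ x| ≤ C ∧ |deriv (deriv χ) x| ≤ C := by
  have h1 := sm_deriv h
  obtain ⟨C, hC, k1⟩ := bd_supp h1.continuous (flat_l h ha) (flat_r h hb)
  obtain ⟨C', hC', k2⟩ := bd_supp (sm_deriv h1).continuous (flat_l h1 (flat_l h ha))
    (flat_r h1 (flat_r h hb))
  exact ⟨max C C', hC.trans (le_max_left _ _), fun x =>
    ⟨(k1 x).trans (le_max_left _ _), (k2 x).trans (le_max_right _ _)⟩⟩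

end one

/-- The constant of the cut-offs. -/
theorem cut_ex : ∃ C : ℝ, 1 ≤ C ∧ (∀ x, |deriv Real.smoothTransition x| ≤ C ∧
    |deriv (deriv Real.smoothTransition) x| ≤ C) ∧
    ∀ x, |deriv chi0 x| ≤ C ∧ |deriv (deriv chi0) x| ≤ C := by
  obtain ⟨C, hC, h1⟩ := der_bd (χ := Real.smoothTransition) (a := 0) (b := 1) (c := 0) (e := 1)
    Real.smoothTransition.contDiff (fun s hs => Real.smoothTransition.zero_of_nonpos hs)
    (fun s hs => Real.smoothTransition.one_of_one_le hs)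
  have hs : ContDiff ℝ ∞ chi0 := by
    unfold chi0
    exact Real.smoothTransition.contDiff.comp (by fun_prop)
  obtain ⟨C', hC', h2⟩ := der_bd (χ := chi0) (a := 1) (b := 4) (c := 1) (e := 0) hs
    (fun s hs => Real.smoothTransition.one_of_one_le (by linarith))
    (fun s hs => Real.smoothTransition.zero_of_nonpos (by linarith))
  exact ⟨max C C', hC.trans (le_max_left _ _), fun x =>
    ⟨(h1 x).1.trans (le_max_left _ _), (h1 x).2.trans (le_max_left _ _)⟩, fun x =>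
    ⟨(h2 x).1.trans (le_max_right _ _), (h2 x).2.trans (le_max_right _ _)⟩⟩

/-- The constant. -/
def cC : ℝ := cut_ex.choose

lemma cC1 : 1 ≤ cC := cut_ex.choose_spec.1
lemma cCs (x : ℝ) : |deriv Real.smoothTransition x| ≤ cC ∧
    |deriv (deriv Real.smoothTransition) x| ≤ cC := cut_ex.choose_spec.2.1 x
lemma cCx (x : ℝ) : |deriv chi0 x| ≤ cC ∧ |deriv (deriv chi0) x| ≤ cC :=
  cut_ex.choose_spec.2.2 x

/-- The constant of `μ`. -/
def cM : ℝ := 6 + |muC 0| + |muC 1|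

lemma cM0 : 6 ≤ cM := by
  unfold cM
  linarith [abs_nonneg (muC 0), abs_nonneg (muC 1)]

open Vale.Agent.P088.R2.H747.A (be)

variable {n : ℕ} {q : Cst} {d : Pk n}

lemma be_nonneg (hM : 1 ≤ Real.log q.M₀) : 0 ≤ be q := Real.rpow_nonneg (by linarith) _

lemma b0_le (hM : 1 ≤ Real.log q.M₀) : H313.Mu.b0 1 q.M₀ ≤ be q := by
  unfold H313.Mu.b0 H747.A.be
  rw [one_mul]
  exact Real.rpow_le_rpow_of_exponent_le hM (by norm_num)

/-- `μ` and its derivatives. -/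
lemma mu_bd (k : PkOk q d) (hM : 1 ≤ Real.log q.M₀) (s : ℝ) : |d.μ s| ≤ cM * be q ∧
    |deriv d.μ s| ≤ cM * be q ∧ |deriv (deriv d.μ) s| ≤ cM * be q := by
  have hm := k.ph.isμ
  have hb := be_nonneg hM
  have hb0 := b0_le hM
  have hb00 : 0 ≤ H313.Mu.b0 1 q.M₀ := by
    unfold H313.Mu.b0
    rw [one_mul]
    exact Real.rpow_nonneg (by linarith) _
  have c0 := abs_nonneg (muC 0)
  have c1 := abs_nonneg (muC 1)
  have key : ∀ {x y : ℝ}, |x| ≤ y * H313.Mu.b0 1 q.M₀ → |y| ≤ cM → |x| ≤ cM * be q := by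
    intro x y h1 h2
    refine h1.trans ?_
    calc y * H313.Mu.b0 1 q.M₀ ≤ |y| * H313.Mu.b0 1 q.M₀ :=
          mul_le_mul_of_nonneg_right (le_abs_self y) hb00
      _ ≤ cM * be q := mul_le_mul h2 hb0 hb00 (by linarith [cM0])
  refine ⟨?_, ?_, ?_⟩
  · have h1 := hm.bd s
    have e1 : 6 * 1 * Real.log q.M₀ ^ (-(1 / 2) : ℝ) = 6 * be q := by unfold H747.A.be; ring
    rw [e1] at h1
    exact h1.trans (mul_le_mul_of_nonneg_right cM0 hb)
  · have h1 := hm.bj 0 s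
    rw [zero_add, iteratedDeriv_one] at h1
    refine key h1 ?_
    unfold cM; linarith
  · have h1 := hm.bj 1 s
    rw [show (1:ℕ) + 1 = 2 from rfl, iteratedDeriv_succ, iteratedDeriv_one] at h1
    refine key h1 ?_
    unfold cM; linarith

lemma muc_sm (k : PkOk q d) : ContDiff ℝ ∞ (d.μc q) := by
  unfold Pk.μc
  exact k.ph.isμ.sm.mul (contDiff_const.sub (Real.smoothTransition.contDiff.comp (by fun_prop)))

/-- `μc` and its derivatives. -/
lemma muc_bd (k : PkOk q d) (hM : 1 ≤ Real.log q.M₀) (hR : 2 ≤ q.R) (s : ℝ) :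
    |d.μc q s| ≤ 4 * cC * cM * be q ∧ |deriv (d.μc q) s| ≤ 4 * cC * cM * be q ∧
      |deriv (deriv (d.μc q)) s| ≤ 4 * cC * cM * be q := by
  have hR0 : 0 < q.R := by linarith
  have hb := be_nonneg hM
  have hC := cC1
  have hMM := cM0
  obtain ⟨B, hB⟩ : ∃ B, B = cM * be q := ⟨_, rfl⟩
  have B0 : 0 ≤ B := by rw [hB]; exact mul_nonneg (by linarith) hb
  obtain ⟨m, hm⟩ : ∃ m, m = d.μ := ⟨_, rfl⟩
  have sm : ContDiff ℝ ∞ m := by rw [hm]; exact k.ph.isμ.sm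
  have bm : ∀ s, |m s| ≤ B ∧ |deriv m s| ≤ B ∧ |deriv (deriv m) s| ≤ B := by
    intro s; rw [hm, hB]; exact mu_bd k hM s
  obtain ⟨ρ, hρ⟩ : ∃ ρ, ρ = 2 / q.R := ⟨_, rfl⟩
  have ρ0 : 0 ≤ ρ := by rw [hρ]; positivity
  have ρ1 : ρ ≤ 1 := by rw [hρ, div_le_one hR0]; exact hR
  obtain ⟨ψ, hψ⟩ : ∃ ψ : ℝ → ℝ, ψ = fun s => 1 - Real.smoothTransition
    (2 * ((s - d.l₀ q) / q.R) - 1) := ⟨_, rfl⟩
  have hST : ContDiff ℝ ∞ Real.smoothTransition := Real.smoothTransition.contDiff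
  have hlin : ∀ s, HasDerivAt (fun s => 2 * ((s - d.l₀ q) / q.R) - 1) ρ s := by
    intro s
    have := ((((hasDerivAt_id s).sub_const (d.l₀ q)).div_const q.R).const_mul 2).sub_const 1
    refine this.congr_deriv ?_
    rw [hρ]; ring
  have h1 : ∀ s, HasDerivAt ψ (-(deriv Real.smoothTransition
      (2 * ((s - d.l₀ q) / q.R) - 1) * ρ)) s := by
    intro s
    rw [hψ]
    have h2 := ((hST.contDiffAt.differentiableAt (by simp)).hasDerivAt
      (x := 2 * ((s - d.l₀ q) / q.R) - 1)).comp s (hlin s)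
    exact h2.const_sub 1
  have h2 : ∀ s, HasDerivAt (fun s => -(deriv Real.smoothTransition
      (2 * ((s - d.l₀ q) / q.R) - 1) * ρ)) (-(deriv (deriv Real.smoothTransition)
      (2 * ((s - d.l₀ q) / q.R) - 1) * ρ * ρ)) s := by
    intro s
    have h3 := (((sm_deriv hST).contDiffAt.differentiableAt (by simp)).hasDerivAt
      (x := 2 * ((s - d.l₀ q) / q.R) - 1)).comp s (hlin s)
    exact (h3.mul_const ρ).neg
  have e0 : d.μc q = fun s => m s * ψ s := by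
    funext s; rw [hm, hψ]; rfl
  have hm1 : ∀ s, HasDerivAt m (deriv m s) s := fun s =>
    (sm.contDiffAt.differentiableAt (by simp)).hasDerivAt
  have hm2 : ∀ s, HasDerivAt (deriv m) (deriv (deriv m) s) s := fun s =>
    ((sm_deriv sm).contDiffAt.differentiableAt (by simp)).hasDerivAt
  obtain ⟨ψ₁, hψ₁⟩ : ∃ ψ₁ : ℝ → ℝ, ψ₁ = fun s => -(deriv Real.smoothTransition
    (2 * ((s - d.l₀ q) / q.R) - 1) * ρ) := ⟨_, rfl⟩
  obtain ⟨ψ₂, hψ₂⟩ : ∃ ψ₂ : ℝ → ℝ, ψ₂ = fun s => -(deriv (deriv Real.smoothTransition)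
    (2 * ((s - d.l₀ q) / q.R) - 1) * ρ * ρ) := ⟨_, rfl⟩
  have d1 : ∀ s, HasDerivAt ψ (ψ₁ s) s := fun s => by rw [hψ₁]; exact h1 s
  have d2 : ∀ s, HasDerivAt ψ₁ (ψ₂ s) s := fun s => by rw [hψ₁, hψ₂]; exact h2 s
  have b0 : ∀ s, |ψ s| ≤ 1 := fun s => by
    rw [hψ]
    have h3 := Real.smoothTransition.nonneg (2 * ((s - d.l₀ q) / q.R) - 1)
    have h4 := Real.smoothTransition.le_one (2 * ((s - d.l₀ q) / q.R) - 1)
    simp only
    rw [abs_le]; constructor <;> linarith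
  have b1 : ∀ s, |ψ₁ s| ≤ cC := fun s => by
    rw [hψ₁]
    simp only
    rw [abs_neg, abs_mul, abs_of_nonneg ρ0]
    have := mul_le_mul (cCs (2 * ((s - d.l₀ q) / q.R) - 1)).1 ρ1 ρ0 (by linarith)
    linarith
  have b2 : ∀ s, |ψ₂ s| ≤ cC := fun s => by
    rw [hψ₂]
    simp only
    rw [abs_neg, abs_mul, abs_mul, abs_of_nonneg ρ0]
    have h3 := mul_le_mul (cCs (2 * ((s - d.l₀ q) / q.R) - 1)).2 ρ1 ρ0 (by linarith)
    have h4 := mul_le_mul h3 ρ1 ρ0 (by linarith)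
    linarith
  have D1 : deriv (d.μc q) = fun s => deriv m s * ψ s + m s * ψ₁ s := by
    funext s
    rw [e0]
    exact ((hm1 s).mul (d1 s)).deriv
  have D2 : deriv (deriv (d.μc q)) s = deriv (deriv m) s * ψ s + deriv m s * ψ₁ s +
      (deriv m s * ψ₁ s + m s * ψ₂ s) := by
    rw [D1]
    exact (((hm2 s).mul (d1 s)).add ((hm1 s).mul (d2 s))).deriv
  have p : ∀ {x y c : ℝ}, |x| ≤ B → |y| ≤ c → |x * y| ≤ B * c := fun hx hy => by
    rw [abs_mul]; exact mul_le_mul hx hy (abs_nonneg _) B0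
  have BC : B ≤ cC * B := by nlinarith
  have e5 : 4 * cC * cM * be q = 4 * (cC * B) := by rw [hB]; ring
  rw [e5]
  refine ⟨?_, ?_, ?_⟩
  · rw [e0]
    have := p (bm s).1 (b0 s)
    simp only
    linarith
  · rw [D1]
    simp only
    refine (abs_add_le _ _).trans ?_
    have a1 := p (bm s).2.1 (b0 s)
    have a2 := p (bm s).1 (b1 s)
    linarith
  · rw [D2]
    have a1 := p (bm s).2.2 (b0 s)
    have a2 := p (bm s).2.1 (b1 s)
    have a3 := p (bm s).1 (b2 s)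
    refine (abs_add_le _ _).trans ((add_le_add (abs_add_le _ _) (abs_add_le _ _)).trans ?_)
    linarith

lemma muc_zero (k : PkOk q d) (s : ℝ) (hs : s ≤ H313.Mu.sw q.Cs q.M₀) :
    d.μc q s = 0 ∧ deriv (d.μc q) s = 0 ∧ deriv (deriv (d.μc q)) s = 0 := by
  have h0 : ∀ s, s ≤ H313.Mu.sw q.Cs q.M₀ → d.μc q s = 0 := fun s hs => by
    unfold Pk.μc
    rw [k.ph.isμ.ze s hs, zero_mul]
  have h1 := flat_l (muc_sm k) h0
  exact ⟨h0 s hs, h1 s hs, flat_l (sm_deriv (muc_sm k)) h1 s hs⟩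

/-! ### The tensors -/

/-- The tolerance of the tensors. -/
def tE (n : ℕ) (ε : ℝ) : ℝ := (1 + H657.W.cG n 12) * ε

theorem gd_pk (k : PkOk q d) (hR : 0 < q.R) (hε : 0 ≤ q.ε) (h1 : q.ε ≤ 1) (h2 : n * q.ε ≤ 1 / 2)
    (h3 : 200 * ((n : ℝ) + 1) ^ 8 * tE n q.ε ≤ 1) (hκ0 : 0 ≤ q.κ₁) (hκ : q.κ₁ ≤ 1) {z : VV n}
    (hz : nn (dif z) ≤ q.κ₁ * q.R) (hr : 0 < d.r2 z) :
    Gd univ (tE n q.ε) (tE n q.ε * q.R⁻¹) (tE n q.ε * q.R⁻¹ ^ 2) (2 * tE n q.ε)
      (2 * (tE n q.ε * q.R⁻¹)) (2 * tE n q.ε) d.s₁ d.s₂ (gi d.s₁) z := by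
  have hc := H657.W.cG_nn n 12
  have le1 : q.ε ≤ tE n q.ε := by
    unfold tE
    have := mul_nonneg hc hε
    linarith
  have le2 : H657.W.cG n 12 * q.ε ≤ tE n q.ε := by unfold tE; linarith
  have e0 : 0 ≤ tE n q.ε := hε.trans le1
  have n₁ := ((H657.W.Rg.t1 k.rg).mono hR le_rfl le1).nr (by norm_num) univ
  have n₂ := ((H657.W.Rg.t2 k.rg).mono hR le_rfl le1).nr (by norm_num) univ
  have ng := (((H657.W.Rg.t1 k.rg).inv hR h1 h2).mono hR le_rfl le2).nr (by norm_num) univ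
  have hRi : 0 < q.R⁻¹ := inv_pos.2 hR
  have N1 : (1:ℝ) ≤ ((n : ℝ) + 1) ^ 8 :=
    one_le_pow₀ (by linarith [(Nat.cast_nonneg n : (0:ℝ) ≤ n)])
  have t1 : 200 * tE n q.ε ≤ 1 := by
    have := mul_le_mul_of_nonneg_right N1 e0
    linarith
  have qR : q.R⁻¹ * nn (dif z) ≤ 1 := by
    rw [inv_mul_le_iff₀ hR]
    have := mul_le_mul_of_nonneg_right hκ hR.le
    linarith
  have q0 : 0 ≤ q.R⁻¹ * nn (dif z) := mul_nonneg hRi.le (nn_nonneg _)
  refine ⟨isOpen_univ, convex_univ, n₁, n₂, ng, ⟨fun x _ i j => ?_, fun x _ l i j => ?_⟩, e0,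
    by positivity, by positivity, by positivity, by positivity, by linarith, by linarith, ?_, ?_,
    ?_, by linarith, mem_univ _, mem_univ _, ?_⟩
  · have a1 := n₁.b0 x (mem_univ _) i j
    have a2 := n₂.b0 x (mem_univ _) i j
    have e1 : d.s₁ x i j - d.s₂ x i j = (d.s₁ x i j - (1 : Matrix (Fin n) (Fin n) ℝ) i j) -
        (d.s₂ x i j - (1 : Matrix (Fin n) (Fin n) ℝ) i j) := by ring
    rw [e1]
    exact (abs_sub _ _).trans (by linarith)
  · have a1 := n₁.b1 x (mem_univ _) l i j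
    have a2 := n₂.b1 x (mem_univ _) l i j
    exact (abs_sub _ _).trans (by linarith)
  · have := mul_le_mul_of_nonneg_left qR e0
    linarith
  · have e1 : tE n q.ε * q.R⁻¹ ^ 2 * nn (dif z) ^ 2 =
        tE n q.ε * ((q.R⁻¹ * nn (dif z)) * (q.R⁻¹ * nn (dif z))) := by ring
    rw [e1]
    have h4 : (q.R⁻¹ * nn (dif z)) * (q.R⁻¹ * nn (dif z)) ≤ 1 * 1 :=
      mul_le_mul qR qR q0 zero_le_one
    have := mul_le_mul_of_nonneg_left h4 e0
    linarith
  · have := mul_le_mul_of_nonneg_left qR e0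
    linarith
  · rcases (nn_nonneg (dif z)).eq_or_lt with h | h
    · exfalso
      have h4 : ‖dif z‖ = 0 := le_antisymm (by rw [h]; exact norm_le_nn _) (norm_nonneg _)
      have h5 : dif z = 0 := norm_eq_zero.1 h4
      have h6 : d.r2 z = 0 := by
        show 2 * (1 / 2 * bf (gi d.s₁ (mid z)) (dif z) (dif z)) = 0
        rw [h5]
        unfold bf
        simp
      linarith
    · exact h

end Vale.Agent.P088.R2.H230.W
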