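import Vale.Agent.P088.R2.H230.W.Geo7

/-!
# P088, stage 3: row A-GEO, pointwise
-/

open Set Filter
open scoped ContDiff Topology

noncomputable section

namespace Vale.Agent.P088.R2.H230.W

open Vale.Agent.P088.LR Vale.Agent.P088.HY Vale.Agent.P088.R2.H961.GW
open Vale.Agent.P088.R2.H644.Ch (TH GA)
open Vale.Agent.P088.R2.H464.Cu Vale.Agent.P088.R2.H31.EP Vale.Agent.P088.R2.H475

variable {n : ℕ} {q : Cst} {d : Pk n} {ε₀ : ℝ} {z : VV n}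

/-- The constant of the correction. -/
def cT : ℝ := 950 * cC * (4 * cC * cM)

lemma cT0 : 0 < cT := by
  unfold cT
  have := cC1
  have := cM0
  positivity

/-- The conditions on the constants. -/
structure Nk (n : ℕ) (ε₀ : ℝ) (q : Cst) : Prop where
  κ0 : 0 < q.κ₁
  κ1 : q.κ₁ ≤ 1 / 100
  σ0 : 0 < q.σ
  σ1 : q.σ ≤ 1 / 5000
  σ2 : (508 * (n : ℝ) ^ 2 + 11) * q.σ ≤ ε₀ / 2
  Cs1 : 1 ≤ q.Cs
  M0 : 1 ≤ q.M₀
  M1 : 1 ≤ Real.log q.M₀
  M2 : 14 * cC * (4 * cC * cM * H747.A.be q) ≤ ε₀ / 2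
  c0 : 0 < q.c₀
  ε0 : 0 < q.ε
  ε1 : q.ε ≤ 1
  ε2 : n * q.ε ≤ 1 / 2
  ε3 : 200 * ((n : ℝ) + 1) ^ 8 * tE n q.ε ≤ 1
  ε4 : 800 * ((n : ℝ) + 1) ^ 8 * tE n q.ε ≤ ε₀
  ε5 : 6 * (n : ℝ) ^ 4 * tE n q.ε ≤ 1 / 250 * q.σ
  η1 : q.η ≤ q.κ₁ / 100
  R1 : 100 ≤ q.κ₁ * q.R
  R2 : Real.log q.R ≤ q.κ₁ * q.R / 10

namespace Nk

variable (N : Nk n ε₀ q)

include N

lemma R0 : 10000 ≤ q.R := by
  have h1 := N.R1
  have h2 := N.κ1
  have h3 := N.κ0
  by_contra h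
  have h4 : q.R < 10000 := not_le.1 h
  rcases le_or_gt q.R 0 with h5 | h5
  · have := mul_nonpos_of_nonneg_of_nonpos h3.le h5
    linarith
  · have := mul_lt_mul_of_pos_left h4 h3
    linarith

lemma Rp : 0 < q.R := by linarith [N.R0]

lemma κR : q.κ₁ * q.R ≤ q.R / 100 := by
  have := mul_le_mul_of_nonneg_right N.κ1 N.Rp.le
  linarith

lemma Rσ : 5000 * q.R ≤ q.R / q.σ := by
  rw [le_div_iff₀ N.σ0]
  have := mul_le_mul_of_nonneg_left N.σ1 N.Rp.le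
  linarith

/-- The level `λ₀`. -/
lemma lam (k : PkOk q d) : lam0 q.R d.kap d.Gs ≤ q.κ₁ * q.R / 50 ∧
    -(q.κ₁ * q.R / 10) ≤ lam0 q.R d.kap d.Gs := by
  have hR := N.Rp
  have hk : 0 < d.kap := by linarith [k.k1]
  have e1 : lam0 q.R d.kap d.Gs = Real.log d.kap - Real.log q.R + q.R * (-d.Gs) := by
    unfold lam0
    rw [Real.log_div hk.ne' hR.ne']; ring
  have h1 : 0 ≤ Real.log d.kap := Real.log_nonneg k.k1
  have h2 : Real.log d.kap ≤ q.η * q.R := by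
    have := Real.log_le_log hk k.kη
    rwa [Real.log_exp] at this
  have h3 : 0 ≤ q.R * (-d.Gs) := mul_nonneg hR.le (by linarith [k.G0])
  have h4 : q.R * (-d.Gs) ≤ q.R * q.η := mul_le_mul_of_nonneg_left (by linarith [k.G1]) hR.le
  have h5 := mul_le_mul_of_nonneg_right N.η1 hR.le
  have h6 : 0 ≤ Real.log q.R := Real.log_nonneg (by linarith [N.R0])
  rw [e1]
  constructor
  · linarith
  · linarith [N.R2]

end Nk

/-- The geometry of a point of `OmB`. -/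
structure Pt (q : Cst) (d : Pk n) (z : VV n) : Prop where
  r : (q.c₀ / 2) ^ 2 < d.r2 z
  dq : nn (dif z) ≤ q.κ₁ * q.R
  lx : d.l z.1 < lam0 q.R d.kap d.Gs + 5 / 2 * q.R
  ly : d.l z.2 < lam0 q.R d.kap d.Gs + 5 / 2 * q.R
  s : -(17 / 10 * (q.R / q.σ)) < d.l z.1 + d.l z.2

lemma Pt.of (N : Nk n ε₀ q) (hz : z ∈ H747.A.OmB q d) : Pt q d z := by
  obtain ⟨h1, h2, h3, h4, h5, -, -⟩ := hz
  refine ⟨h1, ?_, h3, h4, h5⟩
  refine nn_le_of_sq (mul_nonneg N.κ0.le N.Rp.le) ?_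
  rw [dd_sq]
  exact h2.le

lemma l_sm (N : Nk n ε₀ q) (k : PkOk q d) : ContDiffOn ℝ ∞ d.l univ := by
  rw [k.lev.lit]
  exact (levG_smooth N.σ0 N.σ1).contDiffOn

section pt

variable (N : Nk n ε₀ q) (k : PkOk q d) (P : Pt q d z)

include N P

lemma r2_pos : 0 < d.r2 z := lt_of_le_of_lt (sq_nonneg _) P.r

omit N P in
lemma sub_mid_x (z : VV n) : z.1 - mid z = (1 / 2 : ℝ) • dif z := by
  unfold mid dif
  module

omit N P in
lemma sub_mid_y (z : VV n) : z.2 - mid z = -((1 / 2 : ℝ) • dif z) := by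
  unfold mid dif
  module

lemma nn_mx : nn (z.1 - mid z) ≤ q.κ₁ * q.R / 2 := by
  rw [sub_mid_x, nn_smul, abs_of_pos (by norm_num : (0:ℝ) < 1 / 2)]
  linarith [P.dq]

lemma nn_my : nn (z.2 - mid z) ≤ q.κ₁ * q.R / 2 := by
  rw [sub_mid_y, nn_neg, nn_smul, abs_of_pos (by norm_num : (0:ℝ) < 1 / 2)]
  linarith [P.dq]

lemma σm {x : ℝ} (hx : x ≤ q.κ₁ * q.R / 2) : q.σ / q.R * x ≤ q.σ / 200 := by
  have hR := N.Rp
  have h1 : q.σ / q.R * x ≤ q.σ / q.R * (q.R / 200) :=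
    mul_le_mul_of_nonneg_left (by linarith [N.κR]) (div_pos N.σ0 hR).le
  have e1 : q.σ / q.R * (q.R / 200) = q.σ / 200 := by field_simp
  linarith

include k

/-- All about `|w|`. -/
lemma tws : (119 / 1000 ≤ tw n q.σ q.R z.1 ∧ 119 / 1000 ≤ tw n q.σ q.R z.2 ∧
    1 / 10 ≤ tw n q.σ q.R (mid z)) ∧ tw n q.σ q.R z.1 ≤ 1 + 3 * q.σ ∧
    tw n q.σ q.R z.2 ≤ 1 + 3 * q.σ ∧ tw n q.σ q.R (mid z) ≤ 1 + 4 * q.σ := by
  have hR := N.Rp
  have h0 := N.σ0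
  have h1 := N.σ1
  have el := k.lev.lit
  have p3 := P.lx
  have p4 := P.ly
  have p5 := P.s
  rw [el] at p3 p4 p5
  have ux := tw_le_one h0 h1 hR p3.le
  have uy := tw_le_one h0 h1 hR p4.le
  have hl := (N.lam k).1
  have hρ := N.Rσ
  have hκ := N.κR
  have nq : nn (z.1 - z.2) ≤ q.κ₁ * q.R := P.dq
  have nq' : nn (z.2 - z.1) ≤ q.κ₁ * q.R := by rw [nn_sub_comm]; exact P.dq
  have lx := lev_lip (kap := d.kap) (Gs := d.Gs) h0 h1 hR (x := z.1) (y := z.2) (by linarith)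
  have ly := lev_lip (kap := d.kap) (Gs := d.Gs) h0 h1 hR (x := z.2) (y := z.1) (by linarith)
  have ax : 119 / 1000 ≤ tw n q.σ q.R z.1 := by
    refine tw_ge_of (kap := d.kap) (Gs := d.Gs) h0 h1 hR ?_
    linarith
  have ay : 119 / 1000 ≤ tw n q.σ q.R z.2 := by
    refine tw_ge_of (kap := d.kap) (Gs := d.Gs) h0 h1 hR ?_
    linarith
  have mx := tw_le (n := n) h0 hR z.1 (mid z)
  have mx' := tw_le (n := n) h0 hR (mid z) z.1
  rw [nn_sub_comm (mid z)] at mx'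
  have s1 := σm N P (nn_mx N P)
  refine ⟨⟨ax, ay, ?_⟩, ux, uy, ?_⟩
  · linarith
  · linarith

/-- The tensors. -/
lemma gdp : Gd univ (tE n q.ε) (tE n q.ε * q.R⁻¹) (tE n q.ε * q.R⁻¹ ^ 2) (2 * tE n q.ε)
    (2 * (tE n q.ε * q.R⁻¹)) (2 * tE n q.ε) d.s₁ d.s₂ (gi d.s₁) z :=
  gd_pk k N.Rp N.ε0.le N.ε1 N.ε2 N.ε3 N.κ0.le (by linarith [N.κ1]) P.dq (r2_pos N P)

lemma tE0 : 0 ≤ tE n q.ε := (gdp N k P).ε0

lemma δs : 6 * (n : ℝ) ^ 4 * (tE n q.ε * q.R⁻¹) ≤ 1 / 250 * (q.σ / q.R) := by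
  have h := mul_le_mul_of_nonneg_right N.ε5 (inv_pos.2 N.Rp).le
  have e1 : 1 / 250 * q.σ * q.R⁻¹ = 1 / 250 * (q.σ / q.R) := by
    rw [div_eq_mul_inv q.σ]; ring
  rw [← e1]
  linarith

lemma δ1 : 3 * (n : ℝ) ^ 4 * (tE n q.ε * q.R⁻¹) ≤ 1 := by
  have h := δs N k P
  have hR := N.Rp
  have h2 : q.σ / q.R ≤ 1 := by
    rw [div_le_one hR]; linarith [N.σ1, N.R0]
  have h3 : 0 ≤ 3 * (n : ℝ) ^ 4 * (tE n q.ε * q.R⁻¹) := by
    have := tE0 N k P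
    have := inv_pos.2 hR
    positivity
  linarith

lemma hess_mid (U : V n) : |∑ i, ∑ j, U i * U j * pd j (pd i d.l) (mid z)| ≤ dd U U := by
  have hR := N.Rp
  rw [k.lev.lit]
  obtain ⟨h1, h2⟩ := hess_levG (kap := d.kap) (Gs := d.Gs) N.σ0 N.σ1 hR (mid z) U
  have h0 : 0 ≤ 3 / 100 * (q.σ / q.R) * HY.sq U :=
    mul_nonneg (mul_nonneg (by norm_num) (div_pos N.σ0 hR).le) (sq0 U)
  rw [abs_of_nonneg (h0.trans h1), dd_sq]
  refine h2.trans ?_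
  have h3 : 410 * (q.σ / q.R) ≤ 1 := by
    rw [← mul_div_assoc, div_le_one hR]; linarith [N.σ1, N.R0]
  have := mul_le_mul_of_nonneg_right h3 (sq0 U)
  linarith

lemma hess_pt (x U : V n) : 3 / 100 * (q.σ / q.R) * dd U U ≤
    ∑ i, ∑ j, U i * U j * pd j (pd i d.l) x := by
  rw [k.lev.lit, dd_sq]
  exact (hess_levG N.σ0 N.σ1 N.Rp x U).1

lemma grl_le : nn (grl d.l z.1) ≤ 101 / 100 ∧ nn (grl d.l z.2) ≤ 101 / 100 ∧
    nn (grl d.l (mid z)) ≤ 101 / 100 := by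
  obtain ⟨-, h1, h2, h3⟩ := tws N k P
  have hσ := N.σ1
  rw [k.lev.lit]
  exact ⟨nn_grl_le N.σ0 N.σ1 N.Rp (by norm_num) (by linarith),
    nn_grl_le N.σ0 N.σ1 N.Rp (by norm_num) (by linarith),
    nn_grl_le N.σ0 N.σ1 N.Rp (by norm_num) (by linarith)⟩

omit P in
lemma cχs : ContDiff ℝ ∞ (d.F q).χ := k.χs

omit P in
lemma cμs : ContDiff ℝ ∞ (d.F q).μ := muc_sm k

omit N P in
lemma rr_eq : rr (gi d.s₁) z = H747.A.rr d z := rfl

/-- The correction where it is present. -/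
lemma T_in (h : d.r2 z < 4) :
    nn (gr (sx d.s₁) (Tm (d.F q).χ (d.F q).μ d.l (gi d.s₁)) z) ≤ ε₀ / 2 ∧
    nn (gr (sy d.s₂) (Tm (d.F q).χ (d.F q).μ d.l (gi d.s₁)) z) ≤ ε₀ / 2 ∧
    ∀ A B, |TH (sx d.s₁) (sy d.s₂) (Tm (d.F q).χ (d.F q).μ d.l (gi d.s₁)) z A B| ≤
      cT * H747.A.be q * (dd A A + dd B B) := by
  have hr : rr (gi d.s₁) z ≤ 2 := by
    have h4 : d.r2 z ≤ 2 ^ 2 := by linarith
    calc rr (gi d.s₁) z = √(d.r2 z) := rfl
      _ ≤ √(2 ^ 2) := Real.sqrt_le_sqrt h4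
      _ = 2 := Real.sqrt_sq (by norm_num)
  have hc := cC1
  have hb := muc_bd k N.M1 (by linarith [N.R0]) (d.l (mid z))
  have hx := k.χb (r2 (gi d.s₁) z)
  have hx' := cCx (r2 (gi d.s₁) z)
  rw [← k.eχ] at hx'
  obtain ⟨a1, a2, a3⟩ := (gdp N k P).Tm_bd (l := d.l) (χ := (d.F q).χ) (μ := (d.F q).μ)
    (γ := cC) (β := 4 * cC * cM * H747.A.be q) (l_sm N k) k.χs (muc_sm k)
    (by linarith [(grl_le N k P).2.2]) (hess_mid N k P) (δ1 N k P) hr hc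
    ((abs_of_nonneg hx.1).trans_le hx.2) hx'.1 hx'.2 hb.1 hb.2.1 hb.2.2
  refine ⟨a1.trans N.M2, a2.trans N.M2, fun A B => (a3 A B).trans (le_of_eq ?_)⟩
  unfold cT; ring

/-- The correction where it vanishes. -/
lemma T_out (h : 4 ≤ d.r2 z ∨ Real.exp (2 * d.l (mid z)) ≤ q.Cs * q.M₀) :
    gr (sx d.s₁) (Tm (d.F q).χ (d.F q).μ d.l (gi d.s₁)) z = 0 ∧
    gr (sy d.s₂) (Tm (d.F q).χ (d.F q).μ d.l (gi d.s₁)) z = 0 ∧
    ∀ A B, TH (sx d.s₁) (sy d.s₂) (Tm (d.F q).χ (d.F q).μ d.l (gi d.s₁)) z A B = 0 := by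
  refine (gdp N k P).Tm_zero (l_sm N k) k.χs (muc_sm k) ?_
  rcases h with h | h
  · left
    have h1 := flat_r k.χs k.χ0
    have h2 := flat_r (sm_deriv k.χs) h1
    exact ⟨k.χ0 _ h, h1 _ h, h2 _ h⟩
  · right
    refine muc_zero k _ ?_
    unfold H313.Mu.sw
    have hp : 0 < q.Cs * q.M₀ := mul_pos (by linarith [N.Cs1]) (by linarith [N.M0])
    have := (Real.le_log_iff_exp_le hp).2 h
    linarith

/-- The Hessian form of `u`. -/
lemma Tu_pt {b : ℝ} (hb : ∀ A B : V n,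
    |TH (sx d.s₁) (sy d.s₂) (Tm (d.F q).χ (d.F q).μ d.l (gi d.s₁)) z A B| ≤
      b * (dd A A + dd B B)) (A B : V n) :
    (q.σ / (40 * q.R) - b) * (dd A A + dd B B) ≤ TH (sx d.s₁) (sy d.s₂) (d.u q) z A B := by
  have hR := N.Rp
  have hs : 0 < q.σ / q.R := div_pos N.σ0 hR
  obtain ⟨g1, g2, -⟩ := grl_le N k P
  have h := (gdp N k P).uu_TH_ge (l := d.l) (F := d.F q) (l_sm N k) k.χs (muc_sm k)
    (c := 3 / 100 * (q.σ / q.R)) (by positivity)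
    (fun j => (abs_le_nn (grl d.l z.1) j).trans (by linarith))
    (fun j => (abs_le_nn (grl d.l z.2) j).trans (by linarith))
    (hess_pt N k P z.1) (hess_pt N k P z.2) hb A B
  refine le_trans (mul_le_mul_of_nonneg_right ?_
    (add_nonneg (dd_self_nonneg A) (dd_self_nonneg B))) h
  have h1 := δs N k P
  have e1 : q.σ / (40 * q.R) = 1 / 40 * (q.σ / q.R) := by field_simp
  rw [e1]
  linarith

/-- The direction. -/
lemma ee_eq : (fun l => H747.A.ee d l z) = (nn (grl d.l (mid z)))⁻¹ • grl d.l (mid z) := by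
  funext j
  have e1 : nn (grl d.l (mid z)) = √(∑ i, pd i d.l (mid z) ^ 2) := by
    unfold nn dd grl
    congr 1
    exact Finset.sum_congr rfl fun i _ => by ring
  show H747.A.ee d j z = (nn (grl d.l (mid z)))⁻¹ * pd j d.l (mid z)
  rw [e1]
  rfl

omit N P k in
lemma hh_eq : (fun l => H747.A.hh l z) = hq z := by
  funext j
  have e1 : nn (dif z) = √(HY.sq (z.1 - z.2)) := nn_en _
  show H747.A.hh j z = (nn (dif z))⁻¹ * (z.1 j - z.2 j)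
  rw [e1]
  rfl

lemma G_pos : 24 / 25 ≤ nn (grl d.l (mid z)) := by
  rw [k.lev.lit]
  exact nn_grl_ge N.σ0 N.σ1 N.Rp (by linarith [(tws N k P).1.2.2])

lemma ee_one : dd (fun l => H747.A.ee d l z) (fun l => H747.A.ee d l z) = 1 := by
  have h := G_pos N k P
  rw [ee_eq N k P, dd_smul_left, dd_smul_right, ← nn_mul_self]
  have : nn (grl d.l (mid z)) ≠ 0 := by linarith
  field_simp

/-- Where `u` is not very negative. -/
lemma near_e (hu : -(4 * (q.κ₁ * q.R)) ≤ d.u q z) :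
    nn (grl d.l z.1 - fun l => H747.A.ee d l z) ≤ ε₀ / 2 ∧
    nn (grl d.l z.2 - fun l => H747.A.ee d l z) ≤ ε₀ / 2 := by
  have hR := N.Rp
  have h0 := N.σ0
  have h1 := N.σ1
  have hκ := N.κR
  have hl := (N.lam k).1
  have hT : |2 * (d.χ (r2 (gi d.s₁) z) * d.μc q (d.l (mid z)))| ≤ 1 / 4 := by
    have hx := k.χb (r2 (gi d.s₁) z)
    have hm : |d.μc q (d.l (mid z))| ≤ 1 / 8 := by
      unfold Pk.μc
      rw [abs_mul]
      have a1 := k.ph.μb (d.l (mid z))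
      have a2 := Real.smoothTransition.nonneg (2 * ((d.l (mid z) - d.l₀ q) / q.R) - 1)
      have a3 := Real.smoothTransition.le_one (2 * ((d.l (mid z) - d.l₀ q) / q.R) - 1)
      have a4 : |1 - Real.smoothTransition (2 * ((d.l (mid z) - d.l₀ q) / q.R) - 1)| ≤ 1 := by
        rw [abs_le]; constructor <;> linarith
      have := mul_le_mul a1 a4 (abs_nonneg _) (by norm_num)
      linarith
    rw [abs_mul, abs_two, abs_mul, abs_of_nonneg hx.1]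
    have := mul_le_mul hx.2 hm (abs_nonneg _) (by norm_num)
    linarith
  have hT' := (abs_le.1 hT).2
  have eu : d.u q z = d.l z.1 + d.l z.2 +
      2 * (d.χ (r2 (gi d.s₁) z) * d.μc q (d.l (mid z))) := rfl
  have p3 := P.lx
  have p4 := P.ly
  have hR1 := N.R0
  have bx : lam0 q.R d.kap d.Gs - 3 * q.R ≤ d.l z.1 := by linarith
  have by' : lam0 q.R d.kap d.Gs - 3 * q.R ≤ d.l z.2 := by linarith
  rw [k.lev.lit] at bx by'
  have tx := tw_ge_one h0 h1 hR bx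
  have mx := tw_le (n := n) h0 hR z.1 (mid z)
  have s1 := σm N P (nn_mx N P)
  obtain ⟨-, -, -, tm⟩ := tws N k P
  have gm : |nn (grl d.l (mid z)) - 1| ≤ 11 * q.σ := by
    rw [k.lev.lit]
    exact nn_grl_one h0 h1 hR (by linarith) (by linarith)
  have gp := G_pos N k P
  have hG : nn (grl d.l (mid z) - fun l => H747.A.ee d l z) ≤ 11 * q.σ := by
    obtain ⟨v, hv⟩ : ∃ v, v = grl d.l (mid z) := ⟨_, rfl⟩
    rw [ee_eq N k P, ← hv]
    rw [← hv] at gm gp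
    have e1 : v - (nn v)⁻¹ • v = (1 - (nn v)⁻¹) • v := by rw [sub_smul, one_smul]
    have e2 : |1 - (nn v)⁻¹| * nn v = |nn v - 1| := by
      have h2 : 0 < nn v := by linarith
      have h3 : nn v - 1 = (1 - (nn v)⁻¹) * nn v := by field_simp
      rw [h3, abs_mul, abs_of_pos h2]
    rw [e1, nn_smul, e2]
    exact gm
  have dx : ∀ x : V n, nn (x - mid z) ≤ q.κ₁ * q.R / 2 →
      nn (grl d.l x - grl d.l (mid z)) ≤ 508 * (n : ℝ) ^ 2 * q.σ := by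
    intro x hx
    rw [k.lev.lit]
    refine (grl_diff h0 h1 hR x (mid z)).trans ?_
    have h2 := σm N P hx
    have h3 := mul_le_mul_of_nonneg_left h2 (by positivity : (0:ℝ) ≤ 508 * (n : ℝ) ^ 2)
    have h4 : 508 * (n : ℝ) ^ 2 * (q.σ / 200) ≤ 508 * (n : ℝ) ^ 2 * q.σ :=
      mul_le_mul_of_nonneg_left (by linarith) (by positivity)
    calc _ = 508 * (n : ℝ) ^ 2 * (q.σ / q.R * nn (x - mid z)) := by ring
      _ ≤ _ := h3.trans h4
  have fin : ∀ x : V n, nn (x - mid z) ≤ q.κ₁ * q.R / 2 →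
      nn (grl d.l x - fun l => H747.A.ee d l z) ≤ ε₀ / 2 := by
    intro x hx
    have e1 : (grl d.l x - fun l => H747.A.ee d l z) = (grl d.l x - grl d.l (mid z)) +
        (grl d.l (mid z) - fun l => H747.A.ee d l z) := by abel
    rw [e1]
    refine (nn_add_le _ _).trans ?_
    have h2 := dx x hx
    have h3 := N.σ2
    linarith
  exact ⟨fin z.1 (nn_mx N P), fin z.2 (nn_my N P)⟩

end pt

end Vale.Agent.P088.R2.H230.W
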