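import Vale.Agent.P088.R2.H230.W.Geo8

/-!
# P088, stage 3: row A-GEO

`rowGeo n : H747.A.RowGeo n`.
-/

open Set Filter
open scoped ContDiff Topology

noncomputable section

namespace Vale.Agent.P088.R2.H230.W

open Vale.Agent.P088.LR Vale.Agent.P088.HY Vale.Agent.P088.R2.H961.GW
open Vale.Agent.P088.R2.H644.Ch (TH GA)
open Vale.Agent.P088.R2.H464.Cu Vale.Agent.P088.R2.H31.EP Vale.Agent.P088.R2.H475

variable {n : ℕ} {q : Cst} {d : Pk n} {ε₀ : ℝ} {z : VV n}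

/-! ### The constants -/

lemma ev_lin {c b : ℝ} (hc : 0 ≤ c) (hb : 0 < b) : ∀ᶠ t in sml, c * t ≤ b := by
  have h1 : 0 < b / (c + 1) := div_pos hb (by linarith)
  filter_upwards [sml_pos, sml_le h1] with t h2 h3
  have h4 := (le_div_iff₀ (by linarith : 0 < c + 1)).1 h3
  linarith

theorem nk_ev (n : ℕ) (ε₀ : Cst → ℝ) (hε : NB_σ ε₀) (h0 : ∀ q, 0 < ε₀ q) :
    EvC fun q => Nk n (ε₀ q) q := by
  have hc := H657.W.cG_nn n 12
  have e1 : EvC fun q => q.κ₁ ≤ 1 / 100 :=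
    EvC.at_κ₁ (fun _ t => t ≤ 1 / 100) fun _ => sml_le (by norm_num)
  have e2 : EvC fun q => q.σ ≤ 1 / 5000 ∧ (508 * (n : ℝ) ^ 2 + 11) * q.σ ≤ ε₀ q.b_σ / 2 :=
    EvC.at_σ (fun q t => t ≤ 1 / 5000 ∧ (508 * (n : ℝ) ^ 2 + 11) * t ≤ ε₀ q / 2) fun q =>
      (sml_le (by norm_num)).and (ev_lin (by positivity) (half_pos (h0 q)))
  have e3 : EvC fun q => 1 ≤ Real.log q.M₀ ∧
      14 * cC * (4 * cC * cM * H747.A.be q) ≤ ε₀ q.b_M₀ / 2 := by
    refine EvC.at_M₀ (fun q t => 1 ≤ Real.log t ∧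
      14 * cC * (4 * cC * cM * Real.log t ^ (-(1 / 2) : ℝ)) ≤ ε₀ q / 2) fun q => ?_
    refine (Real.tendsto_log_atTop.eventually_ge_atTop 1).and ?_
    have h1 : Tendsto (fun t => Real.log t ^ (-(1 / 2) : ℝ)) atTop (𝓝 0) :=
      (tendsto_rpow_neg_atTop (by norm_num : (0:ℝ) < 1 / 2)).comp Real.tendsto_log_atTop
    have h2 : Tendsto (fun t => 14 * cC * (4 * cC * cM * Real.log t ^ (-(1 / 2) : ℝ))) atTop
        (𝓝 (14 * cC * (4 * cC * cM * 0))) := (h1.const_mul _).const_mul _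
    rw [mul_zero, mul_zero] at h2
    exact h2.eventually_le_const (half_pos (h0 q))
  have e4 : EvC fun q => (q.ε ≤ 1 ∧ n * q.ε ≤ 1 / 2) ∧
      (200 * ((n : ℝ) + 1) ^ 8 * tE n q.ε ≤ 1 ∧
      800 * ((n : ℝ) + 1) ^ 8 * tE n q.ε ≤ ε₀ q.b_ε) ∧
      (0 < q.σ → 6 * (n : ℝ) ^ 4 * tE n q.ε ≤ 1 / 250 * q.σ) := by
    refine EvC.at_ε (fun q t => (t ≤ 1 ∧ n * t ≤ 1 / 2) ∧
      (200 * ((n : ℝ) + 1) ^ 8 * tE n t ≤ 1 ∧ 800 * ((n : ℝ) + 1) ^ 8 * tE n t ≤ ε₀ q) ∧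
      (0 < q.σ → 6 * (n : ℝ) ^ 4 * tE n t ≤ 1 / 250 * q.σ)) fun q => ?_
    refine ((sml_le (by norm_num)).and (ev_lin (by positivity) (by norm_num))).and
      ((Eventually.and ?_ ?_).and ?_)
    · filter_upwards [ev_lin (c := 200 * ((n : ℝ) + 1) ^ 8 * (1 + H657.W.cG n 12)) (b := 1)
        (by positivity) (by norm_num)] with t ht
      unfold tE
      linarith
    · filter_upwards [ev_lin (c := 800 * ((n : ℝ) + 1) ^ 8 * (1 + H657.W.cG n 12)) (b := ε₀ q)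
        (by positivity) (h0 q)] with t ht
      unfold tE
      linarith
    · by_cases hs : 0 < q.σ
      · filter_upwards [ev_lin (c := 6 * (n : ℝ) ^ 4 * (1 + H657.W.cG n 12))
          (b := 1 / 250 * q.σ) (by positivity) (by positivity)] with t ht _
        unfold tE
        linarith
      · exact Eventually.of_forall fun t h => absurd h hs
  have e5 : EvC fun q => 0 < q.κ₁ → q.η ≤ q.κ₁ / 100 := by
    refine EvC.at_η (fun q t => 0 < q.κ₁ → t ≤ q.κ₁ / 100) fun q => ?_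
    by_cases hs : 0 < q.κ₁
    · filter_upwards [sml_le (div_pos hs (by norm_num : (0:ℝ) < 100))] with t ht _ using ht
    · exact Eventually.of_forall fun t h => absurd h hs
  have e6 : EvC fun q => 0 < q.κ₁ → 100 ≤ q.κ₁ * q.R ∧ Real.log q.R ≤ q.κ₁ * q.R / 10 := by
    refine EvC.at_R (fun q t => 0 < q.κ₁ → 100 ≤ q.κ₁ * t ∧ Real.log t ≤ q.κ₁ * t / 10)
      fun q => ?_
    by_cases hs : 0 < q.κ₁
    · have h1 := Real.isLittleO_log_id_atTop.bound (div_pos hs (by norm_num : (0:ℝ) < 10))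
      filter_upwards [h1, eventually_ge_atTop (100 / q.κ₁)] with t h2 h3 _
      have h4 : 100 ≤ q.κ₁ * t := by
        rw [mul_comm]; exact (div_le_iff₀ hs).1 h3
      have h5 : 0 ≤ t := (div_nonneg (by norm_num) hs.le).trans h3
      refine ⟨h4, ?_⟩
      rw [id, Real.norm_eq_abs, Real.norm_eq_abs, abs_of_nonneg h5] at h2
      have := (le_abs_self _).trans h2
      linarith
    · exact Eventually.of_forall fun t h => absurd h hs
  refine (((EvC.pos.and e1).and (e2.and e3)).and ((e4.and e5).and e6)).mono ?_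
  rintro q ⟨⟨⟨p, a1⟩, ⟨a2, a2'⟩, a3, a3'⟩, ⟨⟨⟨a4, a5⟩, ⟨a6, a7⟩, a8⟩, a9⟩, a10⟩
  obtain ⟨⟨-, -, -, -, -, pc, -, -, -, -⟩, ⟨pk, ps, -, -, pCs, -, -⟩, pM, -, pe, -, -, -⟩ := p
  have b1 : ε₀ q.b_σ = ε₀ q := hε q
  have b2 : ε₀ q.b_M₀ = ε₀ q := (hε q.b_M₀).symm.trans (hε q)
  have b3 : ε₀ q.b_ε = ε₀ q := (hε q.b_ε).symm.trans (hε q)
  rw [b1] at a2'
  rw [b2] at a3'
  rw [b3] at a7
  exact ⟨pk, a1, ps, a2, a2', pCs, pM, a3, a3', pc, pe, a4, a5, a6, a7, a8 ps, a9 pk,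
    (a10 pk).1, (a10 pk).2⟩

/-! ### The pointwise rows -/

lemma nn_zero' {ι : Type*} [Fintype ι] : nn (0 : ι → ℝ) = 0 := by
  unfold nn dd
  simp

section pt

variable (N : Nk n ε₀ q) (k : PkOk q d) (P : Pt q d z)

include N k P

lemma e0_nonneg : 0 ≤ ε₀ := by
  have h1 := N.ε4
  have h2 := tE0 N k P
  have h3 : 0 ≤ 800 * ((n : ℝ) + 1) ^ 8 * tE n q.ε := by positivity
  linarith

theorem geo_pt (hu : -(4 * (q.κ₁ * q.R)) ≤ d.u q z) :
    Geo d.sx d.sy (d.u q) (H747.A.rr d) (fun l => H747.A.ee d l z) (fun l => H747.A.hh l z) ε₀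
      (H747.A.gH (fun _ => cT) q d z) z := by
  have G := gdp N k P
  have h4 : 400 * ((n : ℝ) + 1) ^ 8 * (2 * tE n q.ε) ≤ ε₀ := by linarith [N.ε4]
  obtain ⟨n1, n2⟩ := near_e N k P hu
  have e0 := e0_nonneg N k P
  have key : ∃ b : ℝ, H747.A.gH (fun _ => cT) q d z = q.σ / (40 * q.R) - b ∧
      nn (gr (sx d.s₁) (Tm (d.F q).χ (d.F q).μ d.l (gi d.s₁)) z) ≤ ε₀ / 2 ∧
      nn (gr (sy d.s₂) (Tm (d.F q).χ (d.F q).μ d.l (gi d.s₁)) z) ≤ ε₀ / 2 ∧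
      ∀ A B, |TH (sx d.s₁) (sy d.s₂) (Tm (d.F q).χ (d.F q).μ d.l (gi d.s₁)) z A B| ≤
        b * (dd A A + dd B B) := by
    by_cases h : d.r2 z < 4 ∧ q.Cs * q.M₀ < Real.exp (2 * d.l (mid z))
    · refine ⟨cT * H747.A.be q, ?_, T_in N k P h.1⟩
      unfold H747.A.gH
      rw [if_pos h]
    · have h' : 4 ≤ d.r2 z ∨ Real.exp (2 * d.l (mid z)) ≤ q.Cs * q.M₀ := by
        rcases not_and_or.1 h with h | h
        · exact Or.inl (not_lt.1 h)
        · exact Or.inr (not_lt.1 h)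
      obtain ⟨t1, t2, t3⟩ := T_out N k P h'
      refine ⟨0, ?_, ?_, ?_, fun A B => ?_⟩
      · unfold H747.A.gH
        rw [if_neg h]
      · rw [t1, nn_zero']; linarith
      · rw [t2, nn_zero']; linarith
      · rw [t3, abs_zero, zero_mul]
  obtain ⟨b, eb, k1, k2, k3⟩ := key
  obtain ⟨u1, u2⟩ := G.uu_near (F := d.F q) (l_sm N k) k.χs (muc_sm k) n1 n2 k1 k2
  rw [add_halves] at u1 u2
  rw [eb, hh_eq]
  exact geo_r G (u := d.u q) h4 (ee_one N k P) u1 u2 (Tu_pt N k P k3)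

lemma two_mid : 2 * d.l (mid z) ≤ d.l z.1 + d.l z.2 + 101 / 100 * (q.κ₁ * q.R) := by
  obtain ⟨-, -, -, tm⟩ := tws N k P
  have hσ := N.σ1
  have h1 := lev_lip (kap := d.kap) (Gs := d.Gs) N.σ0 N.σ1 N.Rp (x := mid z) (y := z.1)
    (by linarith)
  have h2 := lev_lip (kap := d.kap) (Gs := d.Gs) N.σ0 N.σ1 N.Rp (x := mid z) (y := z.2)
    (by linarith)
  rw [← k.lev.lit, nn_sub_comm] at h1 h2
  have h3 := nn_mx N P
  have h4 := nn_my N P
  linarith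

omit P in
lemma T_abs : |2 * (d.χ (r2 (gi d.s₁) z) * d.μc q (d.l (mid z)))| ≤ 1 / 4 := by
  have hx := k.χb (r2 (gi d.s₁) z)
  have hm : |d.μc q (d.l (mid z))| ≤ 1 / 8 := by
    unfold Pk.μc
    rw [abs_mul]
    have a1 := k.ph.μb (d.l (mid z))
    have a2 := Real.smoothTransition.nonneg (2 * ((d.l (mid z) - d.l₀ q) / q.R) - 1)
    have a3 := Real.smoothTransition.le_one (2 * ((d.l (mid z) - d.l₀ q) / q.R) - 1)
    have a4 : |1 - Real.smoothTransition (2 * ((d.l (mid z) - d.l₀ q) / q.R) - 1)| ≤ 1 := by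
      rw [abs_le]; constructor <;> linarith
    have := mul_le_mul a1 a4 (abs_nonneg _) (by norm_num)
    linarith
  rw [abs_mul, abs_two, abs_mul, abs_of_nonneg hx.1]
  have := mul_le_mul hx.2 hm (abs_nonneg _) (by norm_num)
  linarith

theorem geoW_pt (hu : d.u q z ≤ -(4 * (q.κ₁ * q.R))) :
    H747.A.GeoW d.sx d.sy (d.u q) (H747.A.rr d) (fun l => H747.A.ee d l z)
      (fun l => H747.A.hh l z) ε₀ (q.σ / (40 * q.R)) z := by
  have G := gdp N k P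
  have ht : 400 * ((n : ℝ) + 1) ^ 8 * (2 * tE n q.ε) ≤ ε₀ := by linarith [N.ε4]
  have hT := (abs_le.1 (T_abs (z := z) N k)).1
  have eu : d.u q z = d.l z.1 + d.l z.2 +
      2 * (d.χ (r2 (gi d.s₁) z) * d.μc q (d.l (mid z))) := rfl
  have hm := two_mid N k P
  have hR1 := N.R1
  have h0 : Real.exp (2 * d.l (mid z)) ≤ q.Cs * q.M₀ := by
    have h1 : Real.exp (2 * d.l (mid z)) ≤ 1 := Real.exp_le_one_iff.2 (by linarith)
    have h2 := one_le_mul_of_one_le_of_one_le N.Cs1 N.M0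
    linarith
  obtain ⟨t1, t2, t3⟩ := T_out N k P (Or.inr h0)
  obtain ⟨g1, g2, -⟩ := grl_le N k P
  have P1 : (1:ℝ) ≤ (n : ℝ) + 1 := by linarith [(Nat.cast_nonneg n : (0:ℝ) ≤ n)]
  have t0 := G.t0
  have c0 : 0 ≤ ((n : ℝ) + 1) ^ 8 * (2 * tE n q.ε) := mul_nonneg (by positivity) t0
  have c4 : ((n : ℝ) + 1) ^ 4 * (2 * tE n q.ε) ≤ ((n : ℝ) + 1) ^ 8 * (2 * tE n q.ε) :=
    mul_le_mul_of_nonneg_right (pow_le_pow_right₀ P1 (by norm_num)) t0
  have c1 : (n : ℝ) * (2 * tE n q.ε) ≤ ((n : ℝ) + 1) ^ 8 * (2 * tE n q.ε) := by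
    refine mul_le_mul_of_nonneg_right ?_ t0
    calc (n : ℝ) ≤ ((n : ℝ) + 1) ^ 1 := by linarith
      _ ≤ _ := pow_le_pow_right₀ P1 (by norm_num)
  rw [hh_eq]
  refine ⟨ee_one N k P, hq_one G.q0, G.rr0, fun i j => G.n₁.sy z.1 i j,
    fun i j => G.n₂.sy z.2 i j, ?_, ?_, G.rx.trans (by linarith), G.ry.trans (by linarith),
    fun A => (G.nx A).trans (mul_le_mul_of_nonneg_right (by linarith) (nn_nonneg A)),
    fun A => (G.ny A).trans (mul_le_mul_of_nonneg_right (by linarith) (nn_nonneg A)),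
    ?_, fun A B => ?_⟩
  · have e1 := G.uu_gr_x (F := d.F q) (l_sm N k) k.χs (muc_sm k)
    rw [t1, add_zero] at e1
    show nn (gr (sx d.s₁) (uu (d.F q) d.l (gi d.s₁)) z) ≤ 3 / 2
    rw [e1]
    linarith
  · have e1 := G.uu_gr_y (F := d.F q) (l_sm N k) k.χs (muc_sm k)
    rw [t2, add_zero] at e1
    show nn (gr (sy d.s₂) (uu (d.F q) d.l (gi d.s₁)) z) ≤ 3 / 2
    rw [e1]
    linarith
  · have h1 := Tu_pt N k P (b := 0) (fun A B => by rw [t3, abs_zero, zero_mul])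
    intro A B
    have := h1 A B
    rw [sub_zero] at this
    exact this
  · refine (G.Tr A B).trans ?_
    have h1 := add_nonneg (dd_self_nonneg A) (dd_self_nonneg B)
    have h2 := div_le_div_of_nonneg_right ht G.rr0.le
    exact mul_le_mul_of_nonneg_right h2 h1

end pt

/-- **Row A-GEO.** -/
theorem rowGeo (n : ℕ) : H747.A.RowGeo n :=
  ⟨fun _ => cT, fun _ => rfl, fun _ => cT0, fun ε₀ hε h0 =>
    (nk_ev n ε₀ hε h0).mono fun _ N _ k _ hz =>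
      ⟨fun hu => geo_pt N k (Pt.of N hz) hu, fun hu => geoW_pt N k (Pt.of N hz) hu⟩⟩

end Vale.Agent.P088.R2.H230.W
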